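import Vale.Agent.P275CN.Mod
import Vale.Agent.P275HN.Main
import Vale.Agent.P275LM.Nil
import Vale.Agent.P275OI.Defs

/-! # P275: the restrictions used by the operator -/

set_option linter.all false
set_option backward.isDefEq.respectTransparency false

open CategoryTheory Set Topology Filter P275S

noncomputable section

namespace Vale.Agent.P275CN

open P275GC P275MO P275MB P275HN P275Z P275OI P275MM

variable {C : Type} [TopologicalSpace C] {n : ℕ} {A : At C} {l : P275NA.Cy A ℂ} {τ : Ty n} {d : ℤ}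

theorem amb_of (hS : Std A l n d) (ku : KUR n A l) (hτ : bor n ≤ τ.H) : Amb A l τ := by
  have := hS.t2
  have := (nice' hS ku τ).1
  exact ⟨ku τ, nice_mod (ku τ), P275LM.att_hit hS hτ (proper hS (coc hτ))⟩

theorem pt_univ : range (id : Mod A l τ → Mod A l τ) = Pt A l τ univ univ :=
  Set.ext fun y => iff_of_true ⟨y, rfl⟩ ⟨trivial, trivial⟩

/-- restriction from the whole moduli space -/
theorem Gd.all {k : Type} [Field k] (h : Amb A l τ) {V : Set (Pr τ)} (g : Gd A l τ k univ V)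
    {B : TopCat.{0}} {a : B ⟶ TopCat.of (Mod A l τ)} (ha : IsEmbedding a)
    (hr : range a = pr ⁻¹' V) : Function.Bijective (P275S.pb (k := k) a) :=
  Gd.pb (M := TopCat.of (Mod A l τ)) (i := id) (h.univ isClosed_univ) g .id pt_univ ha
    (hr.trans (Set.ext fun _ => (and_iff_left trivial).symm))

variable {hn : 2 ≤ n}

/-- the imaginary part of `z` -/
def imz (hn : 2 ≤ n) : Pr (tauY hn) →L[ℝ] ℝ :=
  Complex.imCLM.comp ((ContinuousLinearMap.proj (0 : Fin 1)).comp (.snd ℝ _ _))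

/-- `λ` and the real part of `z` -/
def rez (hn : 2 ≤ n) : Pr (tauY hn) →L[ℝ] ℂ × ℝ := (ContinuousLinearMap.fst ℝ _ _).prod
  (Complex.reCLM.comp ((ContinuousLinearMap.proj (0 : Fin 1)).comp (.snd ℝ _ _)))

theorem op_pos {E : Type} [NormedAddCommGroup E] [NormedSpace ℝ E] (f : E →L[ℝ] ℝ) :
    IsOpen {v | 0 < f v} ∧ Convex ℝ {v | 0 < f v} :=
  ⟨isOpen_lt continuous_const f.continuous, convex_halfSpace_gt f.toLinearMap.isLinear 0⟩

theorem cl_ker {E F : Type} [NormedAddCommGroup E] [NormedSpace ℝ E] [NormedAddCommGroup F]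
    [NormedSpace ℝ F] (f : E →L[ℝ] F) : IsClosed {v | f v = 0} ∧ Convex ℝ {v | f v = 0} :=
  ⟨isClosed_eq f.continuous continuous_const, f.toLinearMap.ker.convex⟩

theorem Amb.ker {k : Type} [Field k] (h : Amb A l τ) {X : Set C} (hX : IsClosed X) {F : Type}
    [NormedAddCommGroup F] [NormedSpace ℝ F] (f : Pr τ →L[ℝ] F) : Gd A l τ k X {v | f v = 0} :=
  h.closed hX (cl_ker f).1 (map_zero f) fun s _ v a => by
    rw [mem_setOf_eq, map_smul, a, smul_zero]

theorem Amb.half {k : Type} [Field k] (h : Amb A l τ) {X : Set C} (hX : IsClosed X) (lX : LcX X)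
    {F : Type} [NormedAddCommGroup F] [NormedSpace ℝ F] (g : Pr τ →L[ℝ] ℝ) (f : Pr τ →L[ℝ] F)
    (ne : ∃ v, 0 < g v ∧ f v = 0) : Gd A l τ k X ({v | 0 < g v} ∩ {v | f v = 0}) :=
  h.cone hX lX (op_pos g).1 (op_pos g).2 (cl_ker f).1 (cl_ker f).2 ne fun s s0 v a =>
    ⟨by rw [mem_setOf_eq, map_smul]; exact mul_pos s0 a.1,
      by rw [mem_setOf_eq, map_smul, a.2, smul_zero]⟩

variable [P275CC.Nc C] [hy : Hy A l n]

theorem bijt (hS : Std A l n d) : BIJT A l hn := by
  have h : Amb A l (tauY hn) := amb_of hS hy.kur le_rfl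
  refine Gd.all h (h.half isClosed_univ (lcX_open A isOpen_univ) (imz hn)
    (Complex.imCLM.comp (.fst ℝ _ _)) ⟨(0, fun _ => .I), zero_lt_one, rfl⟩) .subtypeVal ?_
  exact Subtype.range_coe.trans (Set.ext fun _ => and_comm)

theorem sur0 (hS : Std A l n d) : SUR0 A l hn := by
  have h : Amb A l (tauY hn) := amb_of hS hy.kur le_rfl
  exact Gd.all h (h.ker isClosed_univ (.snd ℝ _ _)) 
    (ty_emb (τ := tauZ n 0) (τ' := tauY hn) le_rfl (nk_le_qY 0) le_rfl).isEmbedding (range_ZY hn)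

theorem surh (hS : Std A l n d) : SURH n A l := fun p X s hs hr => by
  have h : Amb A l (tauX n) := amb_of hS hy.kur le_top
  have := hS.t2
  refine Gd.pb (M := HT n A l p) (h.univ (isClosed_singleton (x := p)))
    (h.ker isClosed_singleton (.fst ℝ _ _)) .subtypeVal
    (Subtype.range_coe.trans (Set.ext fun _ => (and_iff_right trivial).symm)) hs ?_
  rw [range_comp, hr]
  exact Set.ext fun y => ⟨fun ⟨z, a, b⟩ => b ▸ ⟨a, z.2⟩, fun a => ⟨⟨y, a.2⟩, a.1, rfl⟩⟩

theorem isor : ISOR A l hn := by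
  have := hy.t2
  have := (hy.nice (tauY hn)).1
  have := nice_mod (hy.kur (tauY hn))
  refine isIso_pt (M := sb (sR A l hn)) (S := {v | 0 ≤ imz hn v} ∩ {v | rez hn v = 0})
    (hy.kur _) (lcX_open A isOpen_univ) .subtypeVal ?_ (op_pos (imz hn)).1 (op_pos _).2
    (cl_ker (rez hn)).1 (cl_ker _).2 (fun v a => ⟨le_of_lt (b := imz hn v) a.1, a.2⟩) (fun v a => ?_)
    (.of_comp (jR A l hn).hom.continuous continuous_subtype_val .subtypeVal) ?_
  · exact Subtype.range_coe.trans (Set.ext fun y => ⟨fun a => ⟨⟨a.2.2, Prod.ext a.1 a.2.1⟩, trivial⟩,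
      fun a => ⟨congrArg Prod.fst a.1.2, congrArg Prod.snd a.1.2, a.1.1⟩⟩)
  · let u : Pr (tauY hn) := (0, fun _ => .I)
    refine mem_closure_of_tendsto (f := fun s : ℝ => v + s • u) (b := 𝓝[>] 0)
      (((by fun_prop : Continuous fun s : ℝ => v + s • u).tendsto' 0 v
        (by simp)).mono_left nhdsWithin_le_nhds) ?_
    filter_upwards [self_mem_nhdsWithin] with s s0
    refine ⟨?_, ?_⟩ <;> rw [mem_setOf_eq, map_add, map_smul]
    · exact add_pos_of_nonneg_of_pos a.1 (mul_pos s0 zero_lt_one)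
    · rw [a.2, show rez hn u = 0 from rfl, smul_zero, add_zero]
  · exact Subtype.range_coe.trans (Set.ext fun y => ⟨fun a => ⟨⟨a.2.2, Prod.ext a.1 a.2.1⟩, trivial⟩,
      fun a => ⟨congrArg Prod.fst a.1.2, congrArg Prod.snd a.1.2, a.1.1⟩⟩)

end Vale.Agent.P275CN
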