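import Vale.Agent.P275LM.Sh
import Vale.Agent.P275S.Calc
import Vale.Agent.P275S.Unit

/-! # P275: pull-backs on global sections; convex open sets; the boundary lemma -/

set_option linter.all false
set_option backward.isDefEq.respectTransparency false

open CategoryTheory TopologicalSpace Limits Set Topology P275S

noncomputable section

namespace Vale.Agent.P275CN

open P275LM (RsAt Ng)

variable {k : Type} [Field k] {X X' Y : TopCat.{0}}

section Calc

variable {F G : Cx k X}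

theorem gcl_inj_iff (φ : F ⟶ G) :
    (Function.Injective fun x : kk k X ⟶ KG.of F => x ≫ KG.hom k φ) ↔
      ∀ n, Mono (HomologicalComplex.homologyMap ((mapC (Gam k ⊤)).map φ) n) := by
  simp only [mod_mono_hm_iff]
  constructor
  · intro h n x hx y hy
    refine (gcl_eq_zero_iff (F := F) x hx (n - 1) (by simp)).1 (h ?_)
    change gcl (F := F) x hx ≫ _ = 0 ≫ _
    rw [zero_comp, gcl_comp_hom, gcl_eq_zero_iff _ _ (n - 1) (by simp)]
    exact ⟨y, hy⟩
  · intro h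
    refine (injective_iff_map_eq_zero (Preadditive.rightComp (kk k X) (KG.hom k φ))).2
      fun g hg => KG.ext_pr fun n => ?_
    obtain ⟨c, hc, e⟩ := exists_gcl (KG.pr_mem_deg n g)
    have h1 : gcl c hc ≫ KG.hom k φ = 0 := by
      rw [e, ← KG.pr_comp_of_right (add_zero n) g (KG.hom_mem_deg φ)]
      exact (congrArg (KG.pr n) hg).trans (map_zero _)
    rw [gcl_comp_hom, gcl_eq_zero_iff _ _ (n - 1) (by simp)] at h1
    obtain ⟨y, hy⟩ := h1
    rw [map_zero, ← e, gcl_eq_zero_iff _ _ (n - 1) (by simp)]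
    exact h n c hc y hy

theorem gcl_surj_iff (φ : F ⟶ G) :
    (Function.Surjective fun x : kk k X ⟶ KG.of F => x ≫ KG.hom k φ) ↔
      ∀ n, Epi (HomologicalComplex.homologyMap ((mapC (Gam k ⊤)).map φ) n) := by
  simp only [mod_epi_hm_iff]
  constructor
  · intro h n y hy
    obtain ⟨g, hg⟩ := h (gcl (F := G) y hy)
    obtain ⟨c, hc, e⟩ := exists_gcl (KG.pr_mem_deg n g)
    have h1 : gcl (F := G) y hy = gcl c hc ≫ KG.hom k φ := by
      rw [e, ← KG.pr_comp_of_right (add_zero n) g (KG.hom_mem_deg φ)]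
      exact (KG.pr_of_mem (gcl_mem (F := G) y hy)).symm.trans (congrArg (KG.pr n) hg.symm)
    rw [gcl_comp_hom, gcl_eq_iff _ _ _ _ (n - 1) (by simp)] at h1
    obtain ⟨b, hb⟩ := h1
    exact ⟨c, hc, b, (eq_sub_iff_add_eq'.1 hb)⟩
  · intro h y
    induction y using gcl_ind with
    | h0 => exact ⟨0, zero_comp⟩
    | hadd x y hx hy =>
      obtain ⟨a, rfl⟩ := hx
      obtain ⟨b, rfl⟩ := hy
      exact ⟨a + b, Preadditive.add_comp ..⟩
    | hmk n y hy =>
      obtain ⟨x, hx, b, hb⟩ := h n y hy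
      refine ⟨gcl (F := F) x hx, ?_⟩
      change gcl (F := F) x hx ≫ _ = _
      rw [gcl_comp_hom, eq_comm, gcl_eq_iff _ _ _ _ (n - 1) (by simp)]
      exact ⟨b, eq_sub_iff_add_eq'.2 hb⟩

/-- bijectivity on hypercohomology classes is a quasi-isomorphism on global sections -/
theorem gcl_bij_iff (φ : F ⟶ G) :
    (Function.Bijective fun x : kk k X ⟶ KG.of F => x ≫ KG.hom k φ) ↔
      QuasiIso ((mapC (Gam k ⊤)).map φ) := by
  rw [Function.Bijective, gcl_inj_iff, gcl_surj_iff, _root_.quasiIso_iff]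
  simp only [quasiIsoAt_iff_isIso_homologyMap]
  exact ⟨fun h n => by
    have := h.1 n
    have := h.2 n
    exact isIso_of_mono_of_epi _, fun h => ⟨fun n => by have := h n; infer_instance,
      fun n => by have := h n; infer_instance⟩⟩

theorem d_eI (k : Type) [Field k] (X : TopCat.{0}) :
    app ((I k X).d 0 (0 + 1)) ⊤ (eI k X) = 0 := (rs_I k X).de

theorem unit_eq : unit k X = gcl (eI k X) (d_eI k X) :=
  (Category.id_comp _).symm.trans ((congrArg (· ≫ unit k X) gcl_one0.symm).trans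
    (gcl_comp_hom _ _ (ιI k X)))

theorem uK_eq (f : X' ⟶ X) :
    uK k f = gcl (F := (pushC k f).obj (I k X')) (n := 0) (eI k X') (d_eI k X') := by
  rw [uK, unit_eq]
  exact cU_gcl f _ _

theorem ng_push (f : X' ⟶ X) {F : Cx k X'} (h : Ng F) : Ng ((pushC k f).obj F) :=
  fun j hj _ s => h j hj _ s

theorem ng_I : Ng (I k X) := (rs_I k X).neg

/-- the pull-back preserves the units -/
theorem pullC_eI (f : X' ⟶ X) : app ((pullC k f).f 0) ⊤ (eI k X) = eI k X' := by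
  have := unit_pullI (k := k) f
  rw [unit_eq, uK_eq, pullI, gcl_comp_hom, gcl_eq_iff _ _ _ _ (-1) (by simp)] at this
  obtain ⟨b, hb⟩ := this
  rw [ng_push f ng_I (-1) (by simp) _ b, map_zero] at hb
  exact sub_eq_zero.1 hb.symm

/-- a chain map which preserves the units is the pull-back -/
theorem hom_eq_pullI (f : X' ⟶ X) (u : I k X ⟶ (pushC k f).obj (I k X'))
    (hu : app (u.f 0) ⊤ (eI k X) = eI k X') : KG.hom k u = pullI k f :=
  unit_cancel (injC_K f) (by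
    rw [unit_pullI, unit_eq, uK_eq]
    exact (gcl_comp_hom _ _ u).trans (gcl_congr hu _))

theorem pb_bij_iff' (f : X' ⟶ X) : Function.Bijective (pb (k := k) f) ↔
    Function.Bijective fun x : kk k X ⟶ IK k X => x ≫ pullI k f := by
  rw [← (unit_bijective (injC_I k X) (A := IK k X)).of_comp_iff, ← (evK f).bijective.of_comp_iff']
  exact iff_of_eq (congrArg _ (funext fun a => (evK_pb f a).trans (Category.assoc _ _ _).symm))

/-- the pull-back of classes is bijective iff the sections are quasi-isomorphic -/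
theorem pb_bij_iff (f : X' ⟶ X) (u : I k X ⟶ (pushC k f).obj (I k X'))
    (hu : app (u.f 0) ⊤ (eI k X) = eI k X') :
    Function.Bijective (pb (k := k) f) ↔ QuasiIso ((mapC (Gam k ⊤)).map u) := by
  rw [pb_bij_iff', ← hom_eq_pullI f u hu]
  exact gcl_bij_iff u

theorem pb_bij (f : X' ⟶ X) (h : QuasiIso ((mapC (Gam k ⊤)).map (pullC k f))) :
    Function.Bijective (pb (k := k) f) := (pb_bij_iff f _ (pullC_eI f)).2 h

theorem isIso_pullI (f : X' ⟶ X) (h : ∀ x, QisAt (pullC k f) x) : IsIso (pullI k f) :=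
  have := (P275S.quasiIso_iff _).2 h
  KG.isIso_hom (pullC k f) (injC_I k X) (injC_K f)

theorem isIso_pull (f : X' ⟶ X) [IsIso (pullI k f)] (h : X ⟶ Y) : IsIso (pull k f h) :=
  inferInstanceAs (IsIso ((pushK k h).map (pullI k f)))

theorem pb_bij_of_isIso (f : X' ⟶ X) [IsIso (pullI k f)] : Function.Bijective (pb (k := k) f) :=
  (pb_bij_iff' f).2 ⟨fun _ _ h => (cancel_mono _).1 h, fun y => ⟨y ≫ inv (pullI k f), by simp⟩⟩

theorem rsI (k : Type) [Field k] (X : TopCat.{0}) : P275LM.Rs (I k X) (eI k X) :=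
  P275LM.rs_unit (ιI k X) (softC_I k X)

theorem qisAt_pullC (f : X' ⟶ X) {x : X} (h : RsAt ((pushC k f).obj (I k X')) (eI k X') x) :
    QisAt (pullC k f) x :=
  ((rsI k X).loc x).qis h (rsI k X).de (ng_push f ng_I) _ (pullC_eI f)

end Calc

variable {F : Cx k X} {e : sec (F.X 0) ⊤}

/-- tautness: direct image along an embedding -/
theorem rsAt_emb {j : X ⟶ Y} (hj : IsInducing j) {x : X} (h : RsAt F e x) :
    RsAt ((pushC k j).obj F) e (j x) := by
  have op : ∀ V : Opens X, ∃ W : Opens Y, (Opens.map j).obj W = V := fun V =>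
    let ⟨W, a, b⟩ := hj.isOpen_iff.1 V.2
    ⟨⟨W, a⟩, Opens.ext b⟩
  refine ⟨fun n hn U hx s hs => ?_, fun U hx s hs => ?_, fun U hx a ha => h.ne _ hx a ha⟩
  · obtain ⟨V, hV, xV, t, ht⟩ := h.ex n hn ((Opens.map j).obj U) hx s hs
    obtain ⟨W, rfl⟩ := op V
    refine ⟨U ⊓ W, inf_le_left, ⟨hx, xV⟩,
      res (F.X (n - 1)) (V := (Opens.map j).obj (U ⊓ W)) (fun _ hy => hy.2) t, ?_⟩
    refine (app_res (F.d (n - 1) n) _ t).trans ?_
    rw [ht, res_res]
    rfl
  · obtain ⟨V, hV, xV, a, ht⟩ := h.loc ((Opens.map j).obj U) hx s hs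
    obtain ⟨W, rfl⟩ := op V
    refine ⟨U ⊓ W, inf_le_left, ⟨hx, xV⟩, a, ?_⟩
    have := congrArg (res (F.X 0) (V := (Opens.map j).obj (U ⊓ W)) fun _ hy => hy.2) ht
    rw [res_res, map_smul, res_res] at this
    exact this

theorem exAt_off (j : X ⟶ Y) (F : Cx k X) {Z : Set Y} (hZ : IsClosed Z) (hj : ∀ x, j x ∈ Z)
    {y : Y} (hy : y ∉ Z) (n : ℤ) : ExAt ((pushC k j).obj F) n y := fun U hU s _ =>
  ⟨U ⊓ ⟨Zᶜ, hZ.isOpen_compl⟩, inf_le_left, ⟨hU, hy⟩, 0,
    loc_ext (F.X n) _ _ fun x hx => absurd (hj x) hx.2⟩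

/-- the sections over `T` have the cohomology of a point -/
structure Ac (F : Cx k X) (e : sec (F.X 0) ⊤) (T : Opens X) : Prop where
  ne : (T : Set X).Nonempty
  ex : ∀ n, n ≠ 0 → ∀ s : sec (F.X n) T, app (F.d n (n + 1)) T s = 0 →
    ∃ t, app (F.d (n - 1) n) T t = s
  loc : ∀ s : sec (F.X 0) T, app (F.d 0 1) T s = 0 → ∃ a : k, s = a • res _ le_top e

theorem rsAt_push (j : X ⟶ Y) (R : P275LM.Rs F e) {y : Y}
    (h : ∀ O : Opens Y, y ∈ O → ∃ V, V ≤ O ∧ y ∈ V ∧ Ac F e ((Opens.map j).obj V)) :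
    RsAt ((pushC k j).obj F) e y := by
  refine ⟨fun n hn U hy s hs => ?_, fun U hy s hs => ?_, fun U hy a ha => ?_⟩
  · obtain ⟨V, hV, yV, A⟩ := h U hy
    exact ⟨V, hV, yV, A.ex n hn (res (((pushC k j).obj F).X n) hV s)
      ((app_res (((pushC k j).obj F).d n (n + 1)) hV s).trans (by rw [hs, map_zero]))⟩
  · obtain ⟨V, hV, yV, A⟩ := h U hy
    exact ⟨V, hV, yV, A.loc (res (((pushC k j).obj F).X 0) hV s)
      ((app_res (((pushC k j).obj F).d 0 1) hV s).trans (by rw [hs, map_zero]))⟩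
  · obtain ⟨V, hV, -, ⟨x, hx⟩, -⟩ := h U hy
    exact (R.loc x).ne ((Opens.map j).obj U) (hV hx) a ha

theorem ac_exh [Nice X] (R : P275LM.Rs F e) (T : Opens X) (K : ℕ → Set X)
    (k1 : ∀ m, IsCompact (K m)) (k2 : ∀ m, K m ⊆ T) (k3 : Monotone K)
    (k4 : ∀ x ∈ T, ∃ m, x ∈ interior (K m)) {p : X} (hp : ∀ m, p ∈ K m)
    (ha : ∀ m, Ab.Acy (dG F) (gG F) (K m)) : Ac F e T := by
  have hv : ∀ m j, Van (𝟙 F) {p} (K m) j := fun m j => P275LM.vn_iff.2 (R.res.vn_pair (ha m)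
    (R.res.acy_sub (subsingleton_singleton.anti inter_subset_left)) ⟨p, rfl, hp m⟩ j)
  have pT : p ∈ T := k2 0 (hp 0)
  have key : ∀ n (s : sec (F.X n) T), p ∉ supp s → app (F.d n (n + 1)) T s = 0 →
      ∃ t, app (F.d (n - 1) n) T t = s := fun n s a b => by
    obtain ⟨t, -, c⟩ := P275LM.gam_exh R.soft (idemId F) isClosed_singleton T K k1 k2 k3 k4
      (fun m => hv m _) (fun m => hv m n) s (subset_compl_singleton_iff.2 a) b
    exact ⟨t, c⟩
  refine ⟨⟨p, pT⟩, fun n hn s hs => ?_, fun s hs => ?_⟩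
  · obtain ⟨V, hV, pV, t, ht⟩ := (R.loc p).ex n hn T pT s hs
    obtain ⟨t', W, hW, pW, e'⟩ := R.soft.2 _ {p} isCompact_singleton V
      (singleton_subset_iff.2 pV) t
    obtain ⟨w, hw⟩ := key n (s - app (F.d (n - 1) n) T (res _ le_top t'))
      ((not_mem_supp pT).2 ⟨W, hW.trans hV, pW rfl, by
        rw [map_sub, ← app_res, res_res, e', app_res, ht, res_res, sub_self]⟩)
      (by rw [map_sub, hs, app_d_d, sub_self])
    exact ⟨w + res _ le_top t', by rw [map_add, hw, sub_add_cancel]⟩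
  · obtain ⟨V, hV, pV, a, ht⟩ := (R.loc p).loc T pT s hs
    obtain ⟨w, hw⟩ := key 0 (s - a • res _ le_top e)
      ((not_mem_supp pT).2 ⟨V, hV, pV, by rw [map_sub, map_smul, res_res, ht, sub_self]⟩) (by
        change app (F.d 0 1) T _ = 0
        rw [map_sub, hs, map_smul, app_res, R.de, map_zero, smul_zero, sub_self])
    rw [R.neg _ (by simp) _ w, map_zero] at hw
    exact ⟨a, sub_eq_zero.1 hw.symm⟩

variable {E : Type} [NormedAddCommGroup E] [NormedSpace ℝ E] [FiniteDimensional ℝ E]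

theorem acy_cvx [Nice X] (R : P275LM.Rs F e) {C : Set X} (hC : IsCompact C) {ψ : X → E}
    (h1 : ContinuousOn ψ C) (h2 : InjOn ψ C) (h3 : Convex ℝ (ψ '' C)) :
    Ab.Acy (dG F) (gG F) C := by
  let q := (Module.finBasis ℝ E).equivFunL
  refine R.res.acy_convex _ hC (q ∘ ψ) (q.continuous.comp_continuousOn h1)
    (q.injective.comp_injOn h2) ?_
  rw [image_comp]
  exact h3.linear_image q.toLinearEquiv.toLinearMap

/-- an open set which is homeomorphic to a locally closed convex set is acyclic -/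
theorem ac_cvx [Nice X] (R : P275LM.Rs F e) (T : Opens X) {ψ : X → E}
    (hψ : IsEmbedding ((T : Set X).domRestrict ψ)) {Ω C : Set E} (hΩ : IsOpen Ω)
    (cΩ : Convex ℝ Ω) (hC : IsClosed C) (cC : Convex ℝ C) (im : ψ '' T = Ω ∩ C)
    (ne : (T : Set X).Nonempty) : Ac F e T := by
  have := FiniteDimensional.proper_real E
  let L : ℕ → Set E := fun m =>
    Metric.closedBall 0 m ∩ (C ∩ {x | Metric.ball x (1 / ((m : ℝ) + 1)) ⊆ Ω})
  have pos : ∀ m : ℕ, (0 : ℝ) < 1 / ((m : ℝ) + 1) := fun m => by positivity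
  have l1 : ∀ m, IsCompact (L m) := fun m => (isCompact_closedBall _ _).inter_right (hC.inter (by
    refine isClosed_of_closure_subset fun x hx y hy => ?_
    obtain ⟨z, hz, a⟩ := Metric.mem_closure_iff.1 hx _ (sub_pos.2 (Metric.mem_ball.1 hy))
    exact hz (Metric.mem_ball.2 (by linarith [dist_triangle y x z]))))
  have l2 : ∀ m, Convex ℝ (L m) := fun m => (convex_closedBall _ _).inter (cC.inter (by
    intro x hx y hy a b ha hb hab z hz
    have h1 : ∀ w : E, w + (z - (a • x + b • y)) ∈ Metric.ball w (1 / ((m : ℝ) + 1)) := fun w => by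
      rw [Metric.mem_ball, dist_eq_norm] at hz ⊢
      rwa [add_sub_cancel_left]
    have := cΩ (hx (h1 x)) (hy (h1 y)) ha hb hab
    rwa [smul_add, smul_add, add_add_add_comm, ← add_smul, hab, one_smul, add_sub_cancel] at this))
  have l3 : ∀ m, L m ⊆ Ω ∩ C := fun m x hx => ⟨hx.2.2 (Metric.mem_ball_self (pos m)), hx.2.1⟩
  have l4 : Monotone L := fun a b h x hx => by
    have : (a : ℝ) ≤ b := Nat.cast_le.2 h
    exact ⟨Metric.closedBall_subset_closedBall this hx.1, hx.2.1,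
      (Metric.ball_subset_ball (by gcongr)).trans hx.2.2⟩
  have ct : ContinuousOn ψ T := continuousOn_iff_continuous_domRestrict.2 hψ.continuous
  have mem : ∀ x ∈ T, ψ x ∈ Ω ∩ C := fun x hx => im ▸ ⟨x, hx, rfl⟩
  have l5 : ∀ x ∈ T, ∃ m, x ∈ interior (T ∩ ψ ⁻¹' L m) := fun x hx => by
    obtain ⟨ε, e1, e2⟩ := Metric.isOpen_iff.1 hΩ _ (mem x hx).1
    obtain ⟨a, ha⟩ := exists_nat_one_div_lt (half_pos e1)
    obtain ⟨b, hb⟩ := exists_nat_ge (‖ψ x‖ + ε)
    refine ⟨max a b, mem_interior_iff_mem_nhds.2 ?_⟩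
    filter_upwards [T.2.mem_nhds hx, (ct.continuousAt (T.2.mem_nhds hx)).eventually_mem
      (Metric.ball_mem_nhds _ (half_pos e1))] with y y1 y2
    have a1 : (a : ℝ) ≤ (max a b : ℕ) := Nat.cast_le.2 (le_max_left _ _)
    have a2 : (b : ℝ) ≤ (max a b : ℕ) := Nat.cast_le.2 (le_max_right _ _)
    have a3 : (1 : ℝ) / ((max a b : ℕ) + 1) ≤ 1 / (a + 1) := by gcongr
    rw [Metric.mem_ball] at y2
    refine ⟨y1, ?_, (mem y y1).2, fun z hz => e2 ?_⟩
    · rw [mem_closedBall_zero_iff]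
      linarith [norm_le_norm_add_norm_sub' (ψ y) (ψ x), dist_eq_norm (ψ y) (ψ x)]
    · rw [Metric.mem_ball] at hz ⊢
      linarith [dist_triangle z (ψ y) (ψ x)]
  have k1 : ∀ m, IsCompact (T ∩ ψ ⁻¹' L m) := fun m => by
    have := (hψ.isInducing.isCompact_preimage' (l1 m) (by
      rw [range_domRestrict, im]; exact l3 m)).image continuous_subtype_val
    refine Eq.subst ?_ this
    ext x
    exact ⟨fun ⟨y, a, b⟩ => b ▸ ⟨y.2, a⟩, fun h => ⟨⟨x, h.1⟩, h.2, rfl⟩⟩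
  obtain ⟨p, hp⟩ := ne
  obtain ⟨m₀, h₀⟩ := l5 p hp
  refine ac_exh R T (fun m => T ∩ ψ ⁻¹' L (m + m₀)) (fun m => k1 _) (fun _ => inter_subset_left)
    (fun a b h => inter_subset_inter_right _ (preimage_mono (l4 (by omega)))) (fun x hx => ?_)
    (p := p) (fun m => ⟨hp, l4 (Nat.le_add_left _ _) (interior_subset h₀).2⟩) fun m =>
      acy_cvx R (k1 _) (ct.mono inter_subset_left)
        ((injOn_iff_injective.2 hψ.injective).mono inter_subset_left) ?_
  · obtain ⟨m, hm⟩ := l5 x hx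
    exact ⟨m, interior_mono (inter_subset_inter_right _
      (preimage_mono (l4 (Nat.le_add_right _ _)))) hm⟩
  · rw [image_inter_preimage, im, inter_eq_right.2 (l3 _)]
    exact l2 _

/-- near `m` the map `f` is the projection of a product of a closed convex set with `D'` -/
def LP {M : Type} [TopologicalSpace M] {E : Type} [TopologicalSpace E] (f : M → E) (D' : Set E)
    (m : M) : Prop :=
  ∃ (P : Type) (_ : NormedAddCommGroup P) (_ : NormedSpace ℝ P) (_ : FiniteDimensional ℝ P)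
    (W : Set M) (g : M → P) (D : Set P) (O : Set (P × E)), IsOpen W ∧ m ∈ W ∧ IsClosed D ∧
    Convex ℝ D ∧ IsOpen O ∧ IsEmbedding (W.domRestrict fun y => (g y, f y)) ∧
    (fun y => (g y, f y)) '' W = O ∩ D ×ˢ D'

/-- **BDRY** -/
theorem bdry [Nice X] (R : P275LM.Rs F e) {j : X ⟶ Y} (hj : IsEmbedding j) {f : Y → E}
    {Ω C D' : Set E} (hΩ : IsOpen Ω) (cΩ : Convex ℝ Ω) (hC : IsClosed C) (cC : Convex ℝ C)
    (hr : range j = f ⁻¹' (Ω ∩ C)) (hD : Ω ∩ C ⊆ D') {y : Y} (hy : LP f D' y)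
    (hc : f y ∈ closure (Ω ∩ C)) : RsAt ((pushC k j).obj F) e y := by
  obtain ⟨P, _, _, _, W, g, D, O, w1, w2, d1, d2, o1, em, im⟩ := hy
  refine rsAt_push j R fun O' yO => ?_
  set χ : Y → P × E := fun y => (g y, f y) with hχ
  obtain ⟨O'', o2, o3⟩ := em.isInducing.isOpen_iff.1 (O'.2.preimage continuous_subtype_val)
  have mem : ∀ z ∈ W, χ z ∈ O ∩ D ×ˢ D' := fun z hz => im ▸ ⟨z, hz, rfl⟩
  obtain ⟨r, r0, r1⟩ := Metric.isOpen_iff.1 (o1.inter o2) (χ y)
    ⟨(mem y w2).1, (Set.ext_iff.1 o3 ⟨y, w2⟩).2 yO⟩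
  have ct : ContinuousOn χ W := continuousOn_iff_continuous_domRestrict.2 em.continuous
  have jm : ∀ x, f (j x) ∈ Ω ∩ C := fun x => hr.subset (mem_range_self x)
  have sur : ∀ z ∈ (Metric.ball (χ y) r ∩ univ ×ˢ Ω) ∩ D ×ˢ C,
      ∃ x, (j x ∈ W ∧ χ (j x) ∈ Metric.ball (χ y) r) ∧ χ (j x) = z := fun z hz => by
    obtain ⟨w, a, rfl⟩ := im.symm.subset ⟨(r1 hz.1.1).1, hz.2.1, hD ⟨hz.1.2.2, hz.2.2⟩⟩
    obtain ⟨x, rfl⟩ := (Set.ext_iff.1 hr w).2 ⟨hz.1.2.2, hz.2.2⟩
    exact ⟨x, ⟨a, hz.1.1⟩, rfl⟩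
  let V : Opens Y :=
    ⟨W ∩ χ ⁻¹' Metric.ball (χ y) r, ct.isOpen_inter_preimage w1 Metric.isOpen_ball⟩
  refine ⟨V, fun z hz => (Set.ext_iff.1 o3 ⟨z, hz.1⟩).1 (r1 hz.2).2, ⟨w2, Metric.mem_ball_self r0⟩,
    ac_cvx R _ (ψ := fun x => χ (j x)) ?_ (Metric.isOpen_ball.inter (isOpen_univ.prod hΩ))
      ((convex_ball _ _).inter (convex_univ.prod cΩ)) (d1.prod hC) (d2.prod cC)
      (Subset.antisymm ?_ sur) ?_⟩
  · exact em.comp ((hj.comp IsEmbedding.subtypeVal).codRestrict W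
      fun x : ((Opens.map j).obj V : Set X) => x.2.1)
  · rintro _ ⟨x, hx, rfl⟩
    exact ⟨⟨hx.2, trivial, (jm x).1⟩, (mem _ hx.1).2.1, (jm x).2⟩
  · obtain ⟨v, a, b⟩ := Metric.mem_closure_iff.1 hc r r0
    obtain ⟨x, c, -⟩ := sur (g y, v) ⟨⟨by
      rw [Metric.mem_ball, Prod.dist_eq, dist_self, dist_comm]
      exact max_lt r0 b, trivial, a.1⟩, (mem y w2).2.1, a.2⟩
    exact ⟨x, c⟩

/-- **BDRY**, sheaf form: removing the boundary does not change the constant sheaf -/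
theorem isIso_bdry [Nice X] {j : X ⟶ Y} (hj : IsEmbedding j) {f : Y → E}
    {Ω C D' : Set E} (hΩ : IsOpen Ω) (cΩ : Convex ℝ Ω) (hC : IsClosed C) (cC : Convex ℝ C)
    (hr : range j = f ⁻¹' (Ω ∩ C)) (hD : Ω ∩ C ⊆ D')
    (h : ∀ y, f y ∉ Ω ∩ C → LP f D' y ∧ f y ∈ closure (Ω ∩ C)) : IsIso (pullI k j) := by
  refine isIso_pullI j fun y => qisAt_pullC j ?_
  by_cases a : f y ∈ Ω ∩ C
  · obtain ⟨x, rfl⟩ := (Set.ext_iff.1 hr y).2 a
    exact rsAt_emb hj.isInducing ((rsI k X).loc x)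
  · exact bdry (rsI k X) hj hΩ cΩ hC cC hr hD (h y a).1 (h y a).2

end Vale.Agent.P275CN
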