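import Vale.Agent.P275CN.Bd

/-! # P275: homotopy invariance; the cohomology of a slice of a cone -/

set_option linter.all false
set_option backward.isDefEq.respectTransparency false

open CategoryTheory TopologicalSpace Limits Set Topology Filter P275S

noncomputable section

namespace Vale.Agent.P275CN

open P275LM (RsAt Ng Att Flo Xh)

variable {k : Type} [Field k] {X A M : TopCat.{0}}

theorem nice_of_closed [Nice M] {a : A → M} (ha : IsClosedEmbedding a) : Nice A :=
  ⟨ha.locallyCompactSpace, ha.isEmbedding.t2Space, ha.isEmbedding.secondCountableTopology⟩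

theorem nice_of_open [Nice M] {a : A → M} (ha : IsOpenEmbedding a) : Nice A :=
  ⟨ha.locallyCompactSpace, ha.isEmbedding.t2Space, ha.isEmbedding.secondCountableTopology⟩

/-- the cylinder -/
abbrev Cy (A : TopCat.{0}) : TopCat.{0} := TopCat.of (ℝ × A)

instance [Nice A] : Nice (Cy A) :=
  ⟨inferInstanceAs (LocallyCompactSpace (ℝ × A)), inferInstanceAs (T2Space (ℝ × A)),
    inferInstanceAs (SecondCountableTopology (ℝ × A))⟩

/-- a level of the cylinder -/
def lev (A : TopCat.{0}) (t : ℝ) : A ⟶ Cy A := TopCat.ofHom ⟨fun x => (t, x), by fun_prop⟩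

/-- the projection of the cylinder -/
def prj (A : TopCat.{0}) : Cy A ⟶ A := TopCat.ofHom ⟨Prod.snd, continuous_snd⟩

/-- restriction to a closed subspace along an exhaustion by relatively acyclic compact sets -/
theorem pb_bij_closed [Nice X] {i : A ⟶ X} (hi : IsClosedEmbedding i) {K : ℕ → Set X}
    (hK : Xh K) (hv : ∀ m n, Van (𝟙 (I k X)) (range i) (K m) n) :
    Function.Bijective (pb (k := k) i) := by
  refine pb_bij i (P275LM.qis_exh (softC_I k X) (injC_K i).softC _ hi.isClosed_range hK ?_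
    (fun x hx n => exAt_off i _ hi.isClosed_range mem_range_self hx n) hv)
  rintro _ ⟨x, rfl⟩
  exact qisAt_pullC i (rsAt_emb hi.isInducing ((rsI k A).loc x))

theorem pb_lev_bij [Nice A] (t : ℝ) : Function.Bijective (pb (k := k) (lev A t)) := by
  have hi : IsClosedEmbedding (lev A t) := ⟨isEmbedding_prodMkRight t, by
    have : range (lev A t) = Prod.fst ⁻¹' {t} := by
      ext ⟨s, x⟩
      exact ⟨fun ⟨y, h⟩ => (congrArg Prod.fst h).symm, fun h => ⟨x, Prod.ext (Eq.symm h) rfl⟩⟩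
    rw [this]
    exact isClosed_singleton.preimage continuous_fst⟩
  obtain ⟨L, l1, -, l3, l4⟩ := exists_exhaust (⊤ : Opens A)
  have R := (rsI k (Cy A)).res
  have cp : ∀ m : ℕ, IsCompact (Icc (t - m) (t + m) ×ˢ L m : Set (ℝ × A)) := fun m =>
    isCompact_Icc.prod (l1 m)
  refine pb_bij_closed hi (K := fun m => (Icc (t - m) (t + m) ×ˢ L m : Set (ℝ × A)))
    ⟨cp, fun a b h => ?_, fun p => ?_⟩ fun m n => P275LM.vn_iff.2 ?_
  · have : (a : ℝ) ≤ b := Nat.cast_le.2 h
    exact prod_mono (Icc_subset_Icc (by linarith) (by linarith)) (l3 h)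
  · obtain ⟨a, ha⟩ := l4 p.2 trivial
    obtain ⟨b, hb⟩ := exists_nat_gt |p.1 - t|
    have b1 : (b : ℝ) ≤ (max a b : ℕ) := Nat.cast_le.2 (le_max_right _ _)
    refine ⟨max a b, ?_⟩
    rw [interior_prod_eq, interior_Icc]
    exact ⟨⟨by linarith [neg_abs_le (p.1 - t)], by linarith [le_abs_self (p.1 - t)]⟩,
      interior_mono (l3 (le_max_left _ _)) ha⟩
  refine P275LM.vb R.dat hi.isClosed_range R.neg (cp m) (g := Prod.snd)
    continuous_snd.continuousOn (fun j _ y => ?_) n le_rfl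
  by_cases hy : y ∈ L m
  · have m0 : (0 : ℝ) ≤ m := Nat.cast_nonneg m
    have e : (Icc (t - m) (t + m) ×ˢ L m : Set (ℝ × A)) ∩ Prod.snd ⁻¹' {y} =
        (fun s => (s, y)) '' Icc (t - m) (t + m) := by
      ext ⟨s, x⟩
      constructor
      · rintro ⟨a, rfl⟩
        exact ⟨s, a.1, rfl⟩
      · rintro ⟨s', a, b⟩
        cases b
        exact ⟨⟨a, hy⟩, rfl⟩
    rw [e]
    refine R.vn_pair (P275LM.acy_arc R (γ := fun s => (s, y)) (by fun_prop)
      (fun _ _ h => congrArg Prod.fst h) isCompact_Icc (convex_Icc _ _)) (R.acy_sub ?_)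
      ⟨(t, y), mem_range_self (f := lev A t) y, t, mem_Icc.2 ⟨by linarith, by linarith⟩, rfl⟩ j
    rintro _ ⟨⟨x, rfl⟩, s, -, a⟩ _ ⟨⟨x', rfl⟩, s', -, a'⟩
    have b : y = x := congrArg Prod.snd a
    have b' : y = x' := congrArg Prod.snd a'
    rw [← b, ← b']
  · refine P275LM.van_sub R.dat (fun p hp => absurd ?_ hy) j
    exact (show p.2 = y from hp.2) ▸ hp.1.2

theorem pb_lev_prj (t : ℝ) (a : H k A) : pb (lev A t) (pb (prj A) a) = a :=
  (pb_comp _ _ a).trans (pb_id a)

theorem pb_prj_bij [Nice A] : Function.Bijective (pb (k := k) (prj A)) :=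
  ((pb_lev_bij 0).of_comp_iff' _).1 (by
    rw [show pb (k := k) (lev A 0) ∘ pb (prj A) = id from funext (pb_lev_prj 0)]
    exact Function.bijective_id)

theorem pb_lev [Nice A] (s t : ℝ) (a : H k (Cy A)) : pb (lev A s) a = pb (lev A t) a := by
  obtain ⟨b, rfl⟩ := pb_prj_bij.2 a
  rw [pb_lev_prj, pb_lev_prj]

/-- **homotopy invariance** of the pull-back of classes -/
theorem pb_homotopic [Nice A] {f g : A ⟶ X} (h : f.hom.Homotopic g.hom) (a : H k X) :
    pb f a = pb g a := by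
  obtain ⟨h⟩ := h
  let G : Cy A ⟶ X := TopCat.ofHom ⟨fun p => h (projIcc 0 1 zero_le_one p.1, p.2),
    h.continuous.comp ((continuous_projIcc.comp continuous_fst).prodMk continuous_snd)⟩
  have e0 : lev A 0 ≫ G = f := by
    ext x
    exact (congrArg (fun s => h (s, x)) (projIcc_left zero_le_one)).trans (h.apply_zero x)
  have e1 : lev A 1 ≫ G = g := by
    ext x
    exact (congrArg (fun s => h (s, x)) (projIcc_right zero_le_one)).trans (h.apply_one x)
  rw [← e0, ← e1, ← pb_comp, ← pb_comp, pb_lev 0 1]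

variable {E : Type} [NormedAddCommGroup E] [NormedSpace ℝ E]

/-- the closed cone over `V` -/
def cn (V : Set E) : Set E := {y | ∃ s : ℝ, 0 ≤ s ∧ ∃ v ∈ V, y = s • v}

variable {V : Set E} {lam : E →L[ℝ] ℝ}

theorem cn_convex (hV : Convex ℝ V) : Convex ℝ (cn V) := by
  rintro _ ⟨s, s0, v, hv, rfl⟩ _ ⟨t, t0, w, hw, rfl⟩ a b ha hb -
  obtain ⟨z, hz, e⟩ := (hV.add_smul (mul_nonneg ha s0) (mul_nonneg hb t0)).symm.subset
    (Set.add_mem_add (smul_mem_smul_set hv) (smul_mem_smul_set hw))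
  exact ⟨_, add_nonneg (mul_nonneg ha s0) (mul_nonneg hb t0), z, hz, by
    rw [smul_smul, smul_smul]; exact e.symm⟩

theorem cn_closed (hV : IsCompact V) (hl : ∀ v ∈ V, lam v = 1) : IsClosed (cn V) := by
  have : CompactSpace V := isCompact_iff_compactSpace.1 hV
  have := isClosedMap_snd_of_compactSpace (X := V) (Y := E)
    ({p | 0 ≤ lam p.2} ∩ {p | p.2 = lam p.2 • (p.1 : E)})
    ((isClosed_le continuous_const (by fun_prop)).inter (isClosed_eq (by fun_prop) (by fun_prop)))
  refine Eq.subst (Subset.antisymm ?_ ?_) this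
  · rintro _ ⟨p, ⟨a, b⟩, rfl⟩
    exact ⟨_, a, p.1, p.1.2, b⟩
  · rintro _ ⟨s, s0, v, hv, rfl⟩
    have : lam (s • v) = s := by rw [map_smul, hl v hv, smul_eq_mul, mul_one]
    exact ⟨(⟨v, hv⟩, s • v), ⟨s0.trans_eq this.symm, by rw [mem_setOf_eq, this]⟩, rfl⟩

variable {φ : ℝ → M → M} {N : Set M} {f : M → E}

theorem zero_of_inv (hN : IsCompact N) (hi : ∀ t, ∀ x ∈ N, φ t x ∈ N) (hf : Continuous f)
    (hs : ∀ t m, f (φ t m) = Real.exp t • f m) {x : M} (hx : x ∈ N) : f x = 0 := by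
  by_contra a
  obtain ⟨R, hR⟩ := (hN.image hf).isBounded.exists_norm_le
  have p := norm_pos_iff.2 a
  have R0 : 0 ≤ R := (norm_nonneg _).trans (hR _ ⟨x, hx, rfl⟩)
  have := hR _ ⟨_, hi (Real.log ((R + 1) / ‖f x‖)) x hx, rfl⟩
  rw [hs, Real.exp_log (by positivity), norm_smul, Real.norm_of_nonneg (by positivity),
    div_mul_cancel₀ _ p.ne'] at this
  linarith

/-- **CONE**: the restriction to a compact convex slice is bijective on cohomology -/
theorem cone [Nice M] [FiniteDimensional ℝ E] (h : Att φ N) (hf : Continuous f)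
    (hs : ∀ t m, f (φ t m) = Real.exp t • f m) {D' : Set E} (hL : ∀ m, f m = 0 → LP f D' m)
    (c1 : IsCompact V) (c2 : Convex ℝ V) (c3 : V.Nonempty) (hl : ∀ v ∈ V, lam v = 1)
    (hD : ∀ s : ℝ, 0 < s → ∀ v ∈ V, s • v ∈ D') {a : A ⟶ M} (ha : IsEmbedding a)
    (hr : range a = f ⁻¹' V) : Function.Bijective (pb (k := k) a) := by
  have : Nice A := nice_of_closed ⟨ha, hr ▸ c1.isClosed.preimage hf⟩
  let j : Cy A ⟶ M := TopCat.ofHom ⟨fun p => φ p.1 (a p.2),
    h.cont.comp (continuous_fst.prodMk (ha.continuous.comp continuous_snd))⟩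
  have ls : ∀ s : ℝ, ∀ v ∈ V, lam (s • v) = s := fun s v hv => by
    rw [map_smul, hl v hv, smul_eq_mul, mul_one]
  have aV : ∀ x, f (a x) ∈ V := fun x => hr.subset (mem_range_self x)
  have lj : ∀ p : ℝ × A, lam (f (j p)) = Real.exp p.1 := fun p =>
    (congrArg lam (hs _ _)).trans (ls _ _ (aV _))
  have hj : IsEmbedding j := by
    refine IsInducing.isEmbedding (isInducing_iff_nhds.2 fun p => le_antisymm
      (j.hom.continuous.tendsto p).le_comap ?_)
    let Ψ : M → ℝ × M := fun y => (Real.log (lam (f y)), φ (-Real.log (lam (f y))) y)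
    have e : Ψ ∘ j = Prod.map id a := funext fun p => by
      simp only [Ψ, Function.comp_apply, lj, Real.log_exp]
      exact Prod.ext rfl (h.toFlo.neg _ _)
    have c0 : ContinuousAt (fun y => Real.log (lam (f y))) (j p) :=
      (lam.continuous.comp hf).continuousAt.log (by
        rw [Function.comp_apply, lj]; exact (Real.exp_pos _).ne')
    have c : ContinuousAt Ψ (j p) :=
      c0.prodMk (h.cont.continuousAt.comp (c0.neg.prodMk continuousAt_id))
    rw [(IsInducing.id.prodMap ha.isInducing).nhds_eq_comap p, ← e, ← comap_comap]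
    exact comap_mono c.le_comap
  have oΩ : IsOpen {y | 0 < lam y} := isOpen_lt continuous_const lam.continuous
  have cΩ : Convex ℝ {y | 0 < lam y} := convex_halfSpace_gt lam.toLinearMap.isLinear 0
  have jr : range j = f ⁻¹' ({y | 0 < lam y} ∩ cn V) := by
    refine Subset.antisymm ?_ ?_
    · rintro _ ⟨p, rfl⟩
      exact ⟨(Real.exp_pos _).trans_eq (lj p).symm, _, (Real.exp_pos _).le, _, aV _, hs _ _⟩
    · rintro y ⟨b, s, -, v, hv, e⟩
      have s0 : 0 < s := by rwa [mem_setOf_eq, e, ls s v hv] at b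
      obtain ⟨x, hx⟩ := (Set.ext_iff.1 hr (φ (-Real.log s) y)).2 (by
        rwa [mem_preimage, hs, e, Real.exp_neg, Real.exp_log s0, inv_smul_smul₀ s0.ne'])
      exact ⟨(Real.log s, x), (congrArg _ hx).trans (h.toFlo.neg' _ _)⟩
  obtain ⟨v₀, h₀⟩ := c3
  have cl : (0 : E) ∈ closure ({y | 0 < lam y} ∩ cn V) := by
    refine mem_closure_of_tendsto (f := fun s : ℝ => s • v₀) (b := 𝓝[>] 0) ?_ ?_
    · exact ((by fun_prop : Continuous fun s : ℝ => s • v₀).tendsto' 0 0
        (zero_smul _ _)).mono_left nhdsWithin_le_nhds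
    · filter_upwards [self_mem_nhdsWithin] with s s0
      exact ⟨(mem_Ioi.1 s0).trans_eq (ls s v₀ h₀).symm, s, le_of_lt s0, v₀, h₀, rfl⟩
  have hZ : IsClosed (f ⁻¹' cn V) := (cn_closed c1 hl).preimage hf
  have bj : Function.Bijective (pb (k := k) j) := by
    refine pb_bij j (P275LM.att_qis (rsI k M) h hZ ?_ (fun x hx => ⟨0, le_rfl, v₀, h₀, by
      rw [zero_smul, zero_of_inv h.cpt h.inv hf hs hx]⟩) (injC_K j).softC _
      (fun y hy => qisAt_pullC j ?_) fun y hy n =>
        exAt_off j _ hZ (fun p => (jr.subset (mem_range_self p)).2) hy n)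
    · rintro t x ⟨s, s0, v, hv, e⟩
      exact ⟨_, mul_nonneg (Real.exp_pos t).le s0, v, hv, by rw [hs, e, smul_smul]⟩
    · by_cases b : 0 < lam (f y)
      · obtain ⟨p, rfl⟩ := (Set.ext_iff.1 jr y).2 ⟨b, hy⟩
        exact rsAt_emb hj.isInducing ((rsI k _).loc p)
      · have z : f y = 0 := by
          obtain ⟨s, s0, v, hv, e⟩ := hy
          rw [e, ls s v hv] at b
          rw [e, le_antisymm (not_lt.1 b) s0, zero_smul]
        refine bdry (rsI k _) hj oΩ cΩ (cn_closed c1 hl) (cn_convex c2) jr ?_ (hL y z) (z ▸ cl)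
        rintro _ ⟨b, s, -, v, hv, rfl⟩
        exact hD s (lt_of_lt_of_eq b (ls s v hv)) v hv
  have e : lev A 0 ≫ j = a := by
    ext x
    exact h.zero _
  rw [← e, show ⇑(pb (k := k) (lev A 0 ≫ j)) = pb (lev A 0) ∘ pb j from
    funext fun b => (pb_comp _ _ b).symm]
  exact (pb_lev_bij 0).comp bj

/-- **CONE** for any chain map which preserves the units -/
theorem cone_qis [Nice M] [FiniteDimensional ℝ E] (h : Att φ N) (hf : Continuous f)
    (hs : ∀ t m, f (φ t m) = Real.exp t • f m) {D' : Set E} (hL : ∀ m, f m = 0 → LP f D' m)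
    (c1 : IsCompact V) (c2 : Convex ℝ V) (c3 : V.Nonempty) (hl : ∀ v ∈ V, lam v = 1)
    (hD : ∀ s : ℝ, 0 < s → ∀ v ∈ V, s • v ∈ D') {a : A ⟶ M} (ha : IsEmbedding a)
    (hr : range a = f ⁻¹' V) (u : I k M ⟶ (pushC k a).obj (I k A))
    (hu : app (u.f 0) ⊤ (eI k M) = eI k A) : QuasiIso ((mapC (Gam k ⊤)).map u) :=
  (pb_bij_iff a u hu).1 (cone h hf hs hL c1 c2 c3 hl hD ha hr)

/-- **ATT** in terms of pull-backs: restriction to a closed invariant set containing `N` -/
theorem att_pb [Nice M] (h : Att φ N) {a : A ⟶ M} (ha : IsClosedEmbedding a)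
    (hi : ∀ t, ∀ x ∈ range a, φ t x ∈ range a) (hN : N ⊆ range a) :
    Function.Bijective (pb (k := k) a) := by
  refine pb_bij a (P275LM.att_qis (rsI k M) h ha.isClosed_range hi hN (injC_K a).softC _ ?_
    fun x hx n => exAt_off a _ ha.isClosed_range mem_range_self hx n)
  rintro _ ⟨x, rfl⟩
  exact qisAt_pullC a (rsAt_emb ha.isInducing ((rsI k A).loc x))

end Vale.Agent.P275CN
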