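import Vale.Agent.P275CN.Cone

/-! # P275: cones and slices over locally closed convex sets; invariant subspaces -/

set_option linter.all false
set_option backward.isDefEq.respectTransparency false

open CategoryTheory TopologicalSpace Limits Set Topology Filter P275S

noncomputable section

namespace Vale.Agent.P275CN

open P275LM (RsAt Ng Att Flo Xh)

variable {k : Type} [Field k] {X A M : TopCat.{0}}

theorem nice_of_lc [Nice M] {a : A → M} (ha : IsEmbedding a) (h : IsLocallyClosed (range a)) :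
    Nice A :=
  ⟨ha.isInducing.locallyCompactSpace h, ha.t2Space, ha.secondCountableTopology⟩

section LP

variable {M M' E : Type} [TopologicalSpace M] [TopologicalSpace M'] [TopologicalSpace E]
  {f : M → E} {D' S : Set E}

/-- the local product structure passes to a subspace which is cut out by a closed convex set in
the fibre and by any condition on the base -/
theorem lp_of {P : Type} [NormedAddCommGroup P] [NormedSpace ℝ P] [FiniteDimensional ℝ P]
    {W : Set M} {g : M → P} {D D₂ : Set P} {O : Set (P × E)} (w1 : IsOpen W) (d1 : IsClosed D)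
    (d2 : Convex ℝ D) (o1 : IsOpen O) (em : IsEmbedding (W.domRestrict fun y => (g y, f y)))
    (im : (fun y => (g y, f y)) '' W = O ∩ D ×ˢ D') (e1 : IsClosed D₂) (e2 : Convex ℝ D₂)
    {i : M' → M} (hi : IsEmbedding i) (hr : ∀ y ∈ W, y ∈ range i ↔ g y ∈ D₂ ∧ f y ∈ S) {m : M'}
    (hm : i m ∈ W) : LP (f ∘ i) (D' ∩ S) m := by
  refine ⟨P, _, _, inferInstance, i ⁻¹' W, g ∘ i, D ∩ D₂, O, w1.preimage hi.continuous, hm,
    d1.inter e1, d2.inter e2, o1, em.comp ((hi.comp IsEmbedding.subtypeVal).codRestrict W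
      fun x : (i ⁻¹' W : Set M') => x.2), Subset.antisymm ?_ ?_⟩
  · rintro _ ⟨x, hx, rfl⟩
    have a := im.subset ⟨i x, hx, rfl⟩
    have b := (hr _ hx).1 ⟨x, rfl⟩
    exact ⟨a.1, ⟨a.2.1, b.1⟩, a.2.2, b.2⟩
  · rintro z ⟨a, b, c⟩
    obtain ⟨w, hw, rfl⟩ := im.symm.subset ⟨a, b.1, c.1⟩
    obtain ⟨x, rfl⟩ := (hr w hw).2 ⟨b.2, c.2⟩
    exact ⟨x, hw, rfl⟩

theorem LP.sub {i : M' → M} (hi : IsEmbedding i) (hr : range i = f ⁻¹' S) {m : M'}
    (h : LP f D' (i m)) : LP (f ∘ i) (D' ∩ S) m := by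
  obtain ⟨P, _, _, _, W, g, D, O, w1, w2, d1, d2, o1, em, im⟩ := h
  exact lp_of w1 d1 d2 o1 em im isClosed_univ convex_univ hi (fun y _ => by simp [hr]) w2

theorem LP.opn {i : M' → M} (hi : IsOpenEmbedding i) {m : M'} (h : LP f D' (i m)) :
    LP (f ∘ i) D' m := by
  obtain ⟨P, _, _, _, W, g, D, O, w1, w2, d1, d2, o1, em, im⟩ := h
  obtain ⟨O', o2, o3⟩ := em.isInducing.isOpen_iff.1
    (hi.isOpen_range.preimage continuous_subtype_val)
  refine ⟨P, _, _, inferInstance, i ⁻¹' W, g ∘ i, D, O ∩ O', w1.preimage hi.continuous, w2,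
    d1, d2, o1.inter o2, em.comp ((hi.isEmbedding.comp IsEmbedding.subtypeVal).codRestrict W
      fun x : (i ⁻¹' W : Set M') => x.2), Subset.antisymm ?_ ?_⟩
  · rintro _ ⟨x, hx, rfl⟩
    have a := im.subset ⟨i x, hx, rfl⟩
    exact ⟨⟨a.1, (Set.ext_iff.1 o3 ⟨i x, hx⟩).2 ⟨x, rfl⟩⟩, a.2⟩
  · rintro z ⟨a, b⟩
    obtain ⟨w, hw, rfl⟩ := im.symm.subset ⟨a.1, b⟩
    obtain ⟨x, e⟩ := (Set.ext_iff.1 o3 ⟨w, hw⟩).1 a.2
    obtain rfl : i x = w := e
    exact ⟨x, hw, rfl⟩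

/-- a linear change of the base -/
theorem LP.equiv {E' : Type} [TopologicalSpace E'] (q : E ≃ₜ E') {m : M} (h : LP f D' m) :
    LP (q ∘ f) (q '' D') m := by
  obtain ⟨P, _, _, _, W, g, D, O, w1, w2, d1, d2, o1, em, im⟩ := h
  let Q : P × E ≃ₜ P × E' := (Homeomorph.refl P).prodCongr q
  refine ⟨P, _, _, inferInstance, W, g, D, Q '' O, w1, w2, d1, d2, Q.isOpenMap _ o1,
    Q.isEmbedding.comp em, ?_⟩
  rw [show (fun y => (g y, (q ∘ f) y)) = Q ∘ fun y => (g y, f y) from rfl, image_comp, im,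
    image_inter Q.injective]
  congr 1
  ext ⟨a, b⟩
  exact ⟨fun ⟨z, hz, e⟩ => by cases e; exact ⟨hz.1, z.2, hz.2, rfl⟩,
    fun ⟨h1, y, h2, e⟩ => ⟨(a, y), ⟨h1, h2⟩, Prod.ext rfl e⟩⟩

end LP

/-- an attractor induces an attractor on a closed invariant subspace -/
theorem att_sub {M A : Type} [TopologicalSpace M] [TopologicalSpace A] {φ : ℝ → M → M}
    {N : Set M} (h : Att φ N) {i : A → M} (hi : IsClosedEmbedding i)
    (hv : ∀ t x, φ t (i x) ∈ range i) :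
    ∃ ψ : ℝ → A → A, Att ψ (i ⁻¹' N) ∧ ∀ t x, i (ψ t x) = φ t (i x) := by
  choose ψ hψ using hv
  refine ⟨ψ, ⟨⟨hi.isInducing.continuous_iff.2 ?_, fun x => hi.injective ?_,
    fun s t x => hi.injective ?_⟩, hi.isCompact_preimage h.cpt, fun t x hx => ?_,
    fun y U hU hN => ?_, fun w K hK hw => ?_⟩, hψ⟩
  · exact (h.cont.comp (continuous_fst.prodMk (hi.continuous.comp continuous_snd))).congr
      fun p => (hψ p.1 p.2).symm
  · rw [hψ, h.zero]
  · rw [hψ, hψ, hψ, h.add]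
  · rw [mem_preimage, hψ]
    exact h.inv t _ hx
  · obtain ⟨t, ht⟩ := h.near (i y) (i '' Uᶜ)ᶜ
      (hi.isClosedMap _ hU.isClosed_compl).isOpen_compl (by
        rintro _ a ⟨x, b, rfl⟩
        exact b (hN a))
    exact ⟨t, by_contra fun a => ht ⟨_, a, hψ t y⟩⟩
  · exact h.bdd (i w) _ (hK.image hi.continuous) fun t ht => ⟨_, hw t ht, hψ t w⟩

variable {E : Type} [NormedAddCommGroup E] [NormedSpace ℝ E] [FiniteDimensional ℝ E]
  {φ : ℝ → M → M} {N : Set M} {f : M → E} {Ω C D' : Set E} {lam : E →L[ℝ] ℝ}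

/-- restriction to the part over a locally closed convex cone -/
theorem att_bdry [Nice M] (h : Att φ N) (hf : Continuous f)
    (hs : ∀ t m, f (φ t m) = Real.exp t • f m) (hΩ : IsOpen Ω) (cΩ : Convex ℝ Ω)
    (hC : IsClosed C) (cC : Convex ℝ C) (ne : (Ω ∩ C).Nonempty)
    (sc : ∀ s : ℝ, 0 < s → ∀ v ∈ Ω ∩ C, s • v ∈ Ω ∩ C) (hD : Ω ∩ C ⊆ D')
    (hL : ∀ m, f m ∈ closure (Ω ∩ C) → f m ∉ Ω ∩ C → LP f D' m) {j : X ⟶ M} (hj : IsEmbedding j)
    (hr : range j = f ⁻¹' (Ω ∩ C)) : Function.Bijective (pb (k := k) j) := by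
  have : Nice X := nice_of_lc hj (hr ▸ (hΩ.isLocallyClosed.inter hC.isLocallyClosed).preimage hf)
  have hZ : IsClosed (f ⁻¹' closure (Ω ∩ C)) := isClosed_closure.preimage hf
  obtain ⟨v₀, h₀⟩ := ne
  have cl : (0 : E) ∈ closure (Ω ∩ C) := by
    refine mem_closure_of_tendsto (f := fun s : ℝ => s • v₀) (b := 𝓝[>] 0) ?_ ?_
    · exact ((by fun_prop : Continuous fun s : ℝ => s • v₀).tendsto' 0 0
        (zero_smul _ _)).mono_left nhdsWithin_le_nhds
    · filter_upwards [self_mem_nhdsWithin] with s s0 using sc s s0 v₀ h₀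
  refine pb_bij j (P275LM.att_qis (rsI k M) h hZ (fun t x hx => ?_) (fun x hx => by
    rwa [mem_preimage, zero_of_inv h.cpt h.inv hf hs hx]) (injC_K j).softC _
    (fun y hy => qisAt_pullC j ?_) fun y hy n =>
      exAt_off j _ hZ (fun p => subset_closure (hr.subset (mem_range_self p))) hy n)
  · rw [mem_preimage, hs]
    exact map_mem_closure (continuous_const_smul _) hx (sc _ (Real.exp_pos t))
  · by_cases b : f y ∈ Ω ∩ C
    · obtain ⟨p, rfl⟩ := (Set.ext_iff.1 hr y).2 b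
      exact rsAt_emb hj.isInducing ((rsI k _).loc p)
    · exact bdry (rsI k _) hj hΩ cΩ hC cC hr hD (hL y hy b) hy

omit [FiniteDimensional ℝ E] in
/-- the flow out of a slice -/
theorem flow_emb [Nice A] (h : Flo φ) (hf : Continuous f) (hs : ∀ t m, f (φ t m) = Real.exp t • f m)
    {V : Set E} (hl : ∀ v ∈ V, lam v = 1) {a : A ⟶ M} (ha : IsEmbedding a)
    (hr : range a = f ⁻¹' V) : ∃ j : Cy A ⟶ M, IsEmbedding j ∧ lev A 0 ≫ j = a ∧
      range j = f ⁻¹' {y | ∃ s : ℝ, 0 < s ∧ ∃ v ∈ V, y = s • v} := by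
  let j : Cy A ⟶ M := TopCat.ofHom ⟨fun p => φ p.1 (a p.2),
    h.cont.comp (continuous_fst.prodMk (ha.continuous.comp continuous_snd))⟩
  have aV : ∀ x, f (a x) ∈ V := fun x => hr.subset (mem_range_self x)
  have lj : ∀ p : ℝ × A, lam (f (j p)) = Real.exp p.1 := fun p =>
    (congrArg lam (hs _ _)).trans (by rw [map_smul, hl _ (aV _), smul_eq_mul, mul_one])
  refine ⟨j, ?_, ?_, Subset.antisymm ?_ ?_⟩
  · refine IsInducing.isEmbedding (isInducing_iff_nhds.2 fun p => le_antisymm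
      (j.hom.continuous.tendsto p).le_comap ?_)
    let Ψ : M → ℝ × M := fun y => (Real.log (lam (f y)), φ (-Real.log (lam (f y))) y)
    have e : Ψ ∘ j = Prod.map id a := funext fun p => by
      simp only [Ψ, Function.comp_apply, lj, Real.log_exp]
      exact Prod.ext rfl (h.neg _ _)
    have c0 : ContinuousAt (fun y => Real.log (lam (f y))) (j p) :=
      (lam.continuous.comp hf).continuousAt.log (by
        rw [Function.comp_apply, lj]; exact (Real.exp_pos _).ne')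
    have c : ContinuousAt Ψ (j p) :=
      c0.prodMk (h.cont.continuousAt.comp (c0.neg.prodMk continuousAt_id))
    rw [(IsInducing.id.prodMap ha.isInducing).nhds_eq_comap p, ← e, ← comap_comap]
    exact comap_mono c.le_comap
  · ext x
    exact h.zero _
  · rintro _ ⟨p, rfl⟩
    exact ⟨_, Real.exp_pos _, _, aV _, hs _ _⟩
  · rintro y ⟨s, s0, v, hv, e⟩
    obtain ⟨x, hx⟩ := (Set.ext_iff.1 hr (φ (-Real.log s) y)).2 (by
      rwa [mem_preimage, hs, e, Real.exp_neg, Real.exp_log s0, inv_smul_smul₀ s0.ne'])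
    exact ⟨(Real.log s, x), (congrArg _ hx).trans (h.neg' _ _)⟩

omit [FiniteDimensional ℝ E] in
theorem cone_eq (hΩ : IsOpen Ω) (cΩ : Convex ℝ Ω) (hC : IsClosed C) (cC : Convex ℝ C)
    (hl : ∀ v ∈ C, lam v = 1) : ∃ Ω' C' : Set E, IsOpen Ω' ∧ Convex ℝ Ω' ∧ IsClosed C' ∧
      Convex ℝ C' ∧ Ω' ∩ C' = {y | ∃ s : ℝ, 0 < s ∧ ∃ v ∈ Ω ∩ C, y = s • v} := by
  have ls : ∀ s : ℝ, ∀ v ∈ C, lam (s • v) = s := fun s v hv => by
    rw [map_smul, hl v hv, smul_eq_mul, mul_one]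
  have ct : ContinuousOn (fun y => (lam y)⁻¹ • y) {y | 0 < lam y} :=
    (lam.continuous.continuousOn.inv₀ fun y hy => ne_of_gt hy).smul continuousOn_id
  have oΩ : IsOpen {y | 0 < lam y} := isOpen_lt continuous_const lam.continuous
  refine ⟨{y | 0 < lam y} ∩ (fun y => (lam y)⁻¹ • y) ⁻¹' Ω, closure (cn C),
    ct.isOpen_inter_preimage oΩ hΩ, ?_, isClosed_closure, (cn_convex cC).closure,
    Subset.antisymm ?_ ?_⟩
  · intro x hx y hy a b ha hb hab
    have p : 0 < lam (a • x + b • y) :=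
      convex_halfSpace_gt lam.toLinearMap.isLinear 0 hx.1 hy.1 ha hb hab
    have x0 : 0 < lam x := hx.1
    have y0 : 0 < lam y := hy.1
    have := cΩ hx.2 hy.2 (a := (lam (a • x + b • y))⁻¹ * (a * lam x))
      (b := (lam (a • x + b • y))⁻¹ * (b * lam y)) (by positivity) (by positivity) (by
        rw [← mul_add, inv_mul_eq_one₀ p.ne', map_add, map_smul, map_smul]; rfl)
    refine ⟨p, ?_⟩
    rwa [smul_smul, smul_smul, mul_assoc, mul_assoc, mul_inv_cancel₀ x0.ne', mul_assoc, mul_assoc,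
      mul_inv_cancel₀ y0.ne', mul_one, mul_one, mul_smul, mul_smul, ← smul_add] at this
  · rintro y ⟨⟨a, b⟩, c⟩
    refine ⟨lam y, a, _, ⟨b, ?_⟩, (smul_inv_smul₀ (ne_of_gt a) y).symm⟩
    have := mem_closure_iff_nhdsWithin_neBot.1 c
    refine hC.mem_of_tendsto (b := 𝓝[cn C] y) (f := fun y => (lam y)⁻¹ • y)
      ((ct.continuousAt (oΩ.mem_nhds a)).mono_left nhdsWithin_le_nhds) ?_
    filter_upwards [self_mem_nhdsWithin, nhdsWithin_le_nhds (oΩ.mem_nhds a)] with z ⟨s, _, v, hv, e⟩ z0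
    rw [e, ls s v hv] at z0
    rwa [e, ls s v hv, inv_smul_smul₀ z0.ne']
  · rintro _ ⟨s, s0, v, hv, rfl⟩
    exact ⟨⟨s0.trans_eq (ls s v hv.2).symm, by
      rw [mem_preimage, ls s v hv.2, inv_smul_smul₀ s0.ne']; exact hv.1⟩,
      subset_closure ⟨s, s0.le, v, hv.2, rfl⟩⟩

/-- **CONE** for a locally closed convex slice -/
theorem cone' [Nice M] (h : Att φ N) (hf : Continuous f)
    (hs : ∀ t m, f (φ t m) = Real.exp t • f m) (hΩ : IsOpen Ω) (cΩ : Convex ℝ Ω)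
    (hC : IsClosed C) (cC : Convex ℝ C) (ne : (Ω ∩ C).Nonempty) (hl : ∀ v ∈ C, lam v = 1)
    (hD : ∀ s : ℝ, 0 < s → ∀ v ∈ Ω ∩ C, s • v ∈ D') (hL : ∀ m, LP f D' m) {a : A ⟶ M}
    (ha : IsEmbedding a) (hr : range a = f ⁻¹' (Ω ∩ C)) : Function.Bijective (pb (k := k) a) := by
  have : Nice A := nice_of_lc ha (hr ▸ (hΩ.isLocallyClosed.inter hC.isLocallyClosed).preimage hf)
  obtain ⟨j, j1, rfl, j2⟩ := flow_emb h.toFlo hf hs (fun v hv => hl v hv.2) ha hr
  obtain ⟨Ω', C', a1, a2, a3, a4, e⟩ := cone_eq hΩ cΩ hC cC hl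
  obtain ⟨v₀, h₀⟩ := ne
  rw [show ⇑(pb (k := k) (lev A 0 ≫ j)) = pb (lev A 0) ∘ pb j from
    funext fun b => (pb_comp _ _ b).symm]
  refine (pb_lev_bij 0).comp (att_bdry h hf hs a1 a2 a3 a4 ⟨v₀, ?_⟩ ?_ ?_ (fun m _ _ => hL m) j1
    (e ▸ j2)) <;> rw [e]
  · exact ⟨1, one_pos, v₀, h₀, (one_smul _ _).symm⟩
  · rintro t t0 _ ⟨s, s0, v, hv, rfl⟩
    exact ⟨_, mul_pos t0 s0, v, hv, smul_smul _ _ _⟩
  · rintro _ ⟨s, s0, v, hv, rfl⟩
    exact hD s s0 v hv

end Vale.Agent.P275CN
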