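import Vale.Agent.P275CN.Gen
import Vale.Agent.P275HN.Fam
import Vale.Agent.P275MB.Nice

/-! # P275: attractor, boundary and cone lemmas on the moduli spaces -/

set_option linter.all false
set_option backward.isDefEq.respectTransparency false

open CategoryTheory TopologicalSpace Limits Set Topology Filter P275S

noncomputable section

namespace Vale.Agent.P275CN

open P275LM (Att Flo)
open P275GC P275MO P275MB P275HN

theorem lp_hom {M M' P E : Type} [TopologicalSpace M] [TopologicalSpace M'] [TopologicalSpace E]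
    [NormedAddCommGroup P] [NormedSpace ℝ P] [FiniteDimensional ℝ P] {f : M → E} {S : Set E}
    {D : Set P} (e : OpenPartialHomeomorph M (P × E)) (he : ∀ y ∈ e.source, (e y).2 = f y)
    (d1 : IsClosed D) (d2 : Convex ℝ D) {i : M' → M} (hi : IsEmbedding i)
    (hr : ∀ y ∈ e.source, y ∈ range i ↔ (e y).1 ∈ D ∧ f y ∈ S) {m : M'} (hm : i m ∈ e.source) :
    LP (f ∘ i) S m := by
  have q : ∀ y ∈ e.source, ((e y).1, f y) = e y := fun y a => Prod.ext rfl (he y a).symm
  rw [← univ_inter S]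
  refine lp_of (g := fun y => (e y).1) e.open_source isClosed_univ convex_univ e.open_target ?_ ?_
    d1 d2 hi hr hm
  · rw [show (e.source.domRestrict fun y => ((e y).1, f y)) = e.source.domRestrict e from
      funext fun y => q y y.2]
    exact e.isOpenEmbedding_restrict.isEmbedding
  · rw [image_congr q, e.image_source_eq_target, univ_prod_univ, inter_univ]

theorem zero_of_bdd {E : Type} [NormedAddCommGroup E] [NormedSpace ℝ E] {v : E} {m : ℕ}
    (hm : m ≠ 0) {R : ℝ} (h : ∀ t : ℝ, 0 ≤ t → ‖Real.exp t ^ m • v‖ ≤ R) : v = 0 := by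
  by_contra a
  have := ((tendsto_pow_atTop hm).comp Real.tendsto_exp_atTop).atTop_mul_const (norm_pos_iff.2 a)
  obtain ⟨t, b, c⟩ := ((this.eventually_gt_atTop R).and (eventually_ge_atTop 0)).exists
  have d := h t c
  rw [norm_smul, Real.norm_of_nonneg (by positivity)] at d
  exact b.not_ge d

variable {C : Type} [TopologicalSpace C] {n : ℕ} {A : At C} {l : P275NA.Cy A ℂ} {τ : Ty n}

/-- the space of the parameters `λ, η` -/
abbrev Pr (τ : Ty n) : Type := ℂ × (Fin τ.m → ℂ)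

/-- the parameters `λ, η` -/
def pr (y : Mod A l τ) : Pr τ := (y.lam, y.η)

theorem cont_pr : Continuous (pr : Mod A l τ → Pr τ) := cont_lam.prodMk cont_η

theorem pr_fl (t : ℝ) (y : Mod A l τ) : pr (fl t y) = Real.exp t • pr y := by
  rw [pr, fl, lam_sc, η_sc, Units.val_mk0, ← Complex.ofReal_exp]
  rfl

theorem x_fl (t : ℝ) (y : Mod A l τ) : (fl t y).x = y.x := x_sc _ y

theorem flo : Flo (fl : ℝ → Mod A l τ → Mod A l τ) := ⟨cont_fl, fl_zero, fl_add⟩

theorem hV_fl (t : ℝ) (y : Mod A l τ) (j q) :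
    hV (fl t y) j q = Real.exp t ^ (n - q.2) • hV y j q := by
  rw [fl, hV_sc, Units.val_mk0, ← Complex.ofReal_exp, Complex.real_smul, Complex.ofReal_pow]
  rfl

/-- `X` is locally a closed convex set -/
def LcX (X : Set C) : Prop := ∀ x ∈ X, ∃ (c : OpenPartialHomeomorph C ℂ) (D : Set ℂ),
  x ∈ c.source ∧ IsClosed D ∧ Convex ℝ D ∧ ∀ y ∈ c.source, y ∈ X ↔ c y ∈ D

theorem lcX_open (A : At C) {X : Set C} (h : IsOpen X) : LcX X := fun x hx => by
  obtain ⟨i, a, -⟩ := A.cov x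
  exact ⟨(A.e i).restrOpen X h, univ, ⟨a, hx⟩, isClosed_univ, convex_univ,
    fun y b => iff_of_true b.2 trivial⟩

theorem lcX_pt (A : At C) (p : C) : LcX {p} := by
  rintro x rfl
  obtain ⟨i, a, -⟩ := A.cov x
  exact ⟨A.e i, {A.e i x}, a, isClosed_singleton, convex_singleton _,
    fun y b => ⟨fun c => congrArg _ c, fun c => (A.e i).injOn b a c⟩⟩

theorem lcX_chart (c : OpenPartialHomeomorph C ℂ) {D : Set ℂ} (d1 : IsClosed D) (d2 : Convex ℝ D) :
    LcX (c.source ∩ c ⁻¹' D) := fun _ a => ⟨c, D, a.1, d1, d2, fun _ b => and_iff_right b⟩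

theorem LcX.lc {X : Set C} (h : LcX X) : IsLocallyClosed X := by
  refine ((isLocallyClosed_tfae X).out 0 2).2 fun x hx => ?_
  obtain ⟨c, D, a, d1, -, b⟩ := h x hx
  refine ⟨c.source, c.open_source.mem_nhds a, ?_⟩
  rw [show Subtype.val ⁻¹' X = c.source.domRestrict c ⁻¹' D from Set.ext fun y => b y y.2]
  exact d1.preimage c.isOpenEmbedding_restrict.continuous

/-- the part of the moduli space with parameters in `S` and pole in `X` -/
def Pt (A : At C) (l : P275NA.Cy A ℂ) (τ : Ty n) (S : Set (Pr τ)) (X : Set C) : Set (Mod A l τ) :=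
  {y | pr y ∈ S ∧ y.x ∈ X}

variable (A l τ) in
/-- every point lies in a Kuranishi chart -/
abbrev Ku : Prop := ∀ y : Mod A l τ, ∃ K : Chart A l τ, y ∈ K.e.source

theorem chart_val (K : Chart A l τ) {y : Mod A l τ} (h : y ∈ K.e.source) :
    pr y = ((K.e y).1, (K.e y).2.2.1) ∧ (K.e y).2.1 ∈ (A.e K.i0).target ∧
      (A.e K.i0).symm (K.e y).2.1 = y.x := by
  have a := K.e.map_source h
  have b := (K.e.left_inv h).symm.trans (K.symm _ a)
  refine ⟨Prod.ext ?_ ?_, ?_, ?_⟩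
  · exact (congrArg Mod.lam b).trans (K.lam _ a)
  · exact (congrArg Mod.η b).trans ((η_pt _).trans (K.η _ a))
  · rw [A.tgt]
    exact Metric.ball_subset_ball K.h2 (K.x _ a).1
  · exact ((congrArg Mod.x b).trans (K.x _ a).2).symm

/-- shuffle of the coordinates -/
def shf (m D : ℕ) : Pm m D ≃ₜ (ℂ × (Fin D → ℂ)) × ℂ × (Fin m → ℂ) where
  toFun w := ((w.2.1, w.2.2.2), w.1, w.2.2.1)
  invFun w := (w.2.1, w.1.1, w.2.2, w.1.2)
  left_inv _ := rfl
  right_inv _ := rfl

variable {S S' V Ω D : Set (Pr τ)} {X : Set C}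

/-- the local product structure of the parts of the moduli space -/
theorem lp_mod (k : Ku A l τ) (hX : LcX X) {M : Type} [TopologicalSpace M] {i : M → Mod A l τ}
    (hi : IsEmbedding i) (hr : range i = Pt A l τ S X) (m : M) : LP (pr ∘ i) S m := by
  obtain ⟨K, a⟩ := k (i m)
  obtain ⟨c, D, b, d1, d2, d3⟩ := hX _ (hr.subset (mem_range_self m)).2
  refine lp_hom (D := D ×ˢ univ) (K.e.trans ((shf τ.m K.D).toOpenPartialHomeomorph.trans
    ((((A.e K.i0).symm.trans c).prod (.refl _)).prod (.refl _))))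
    (fun y h => (chart_val K h.1).1.symm) (d1.prod isClosed_univ) (d2.prod convex_univ) hi
    (fun y h => ?_) ⟨a, trivial, ⟨⟨(chart_val K a).2.1, ?_⟩, trivial⟩, trivial⟩
  · have e := (chart_val K h.1).2.2
    have := d3 y.x (e ▸ h.2.2.1.1.2)
    rw [hr]
    rw [← e] at this
    exact ⟨fun u => ⟨⟨this.1 (e.symm ▸ u.2), trivial⟩, u.1⟩, fun u => ⟨u.2, e ▸ this.2 u.1.1⟩⟩
  · rwa [← (chart_val K a).2.2] at b

variable [T2Space C]

theorem nil_cpt [CompactSpace C] (h : IsProperMap fun y : M0 A l τ => hY y.1) :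
    IsCompact (Nil A l τ) := by
  rw [show Nil A l τ = Subtype.val '' ((fun y : M0 A l τ => hY y.1) ⁻¹' univ ×ˢ {0}) from
    Set.ext fun y => ⟨fun a => ⟨⟨y, a.1⟩, ⟨trivial, Prod.ext a.2.1 a.2.2⟩, rfl⟩,
      fun ⟨z, a, b⟩ => b ▸ ⟨z.2, congrArg Prod.fst a.2, congrArg Prod.snd a.2⟩⟩]
  exact (h.isCompact_preimage (isCompact_univ.prod isCompact_singleton)).image
    continuous_subtype_val

theorem nil_of_bdd {w : Mod A l τ} {K : Set (Mod A l τ)} (hK : IsCompact K)
    (h : ∀ t, 0 ≤ t → fl t w ∈ K) : w ∈ Nil A l τ := by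
  obtain ⟨R, a⟩ := (hK.image cont_pr).isBounded.exists_norm_le
  have b : pr w = 0 := zero_of_bdd one_ne_zero fun t ht => by
    rw [pow_one, ← pr_fl]
    exact a _ ⟨_, h t ht, rfl⟩
  have c : IsClosedEmbedding (Subtype.val : M0 A l τ → Mod A l τ) :=
    (isClosed_eq cont_lam continuous_const).isClosedEmbedding_subtypeVal
  obtain ⟨R, a⟩ := ((c.isCompact_preimage hK).image cont_hV).isBounded.exists_norm_le
  refine ⟨congrArg Prod.fst b, congrArg Prod.snd b, funext fun j => funext fun q =>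
    zero_of_bdd (Nat.sub_ne_zero_of_lt q.2.2) (R := R) fun t ht => ?_⟩
  rw [← hV_fl]
  exact (norm_le_pi_norm _ q).trans ((norm_le_pi_norm _ j).trans (a _ ⟨⟨fl t w,
    (lam_sc _ w).trans (mul_eq_zero_of_right _ (congrArg Prod.fst b))⟩, h t ht, rfl⟩))

/-- **ATT** on the moduli space: the nilpotent cone is the attractor -/
theorem att_mod [T2Space (Mod A l τ)] (hN : IsCompact (Nil A l τ))
    (hL : ∀ y : Mod A l τ, ∃ y₀, Tendsto (fun t => fl t y) atBot (𝓝 y₀)) : Att fl (Nil A l τ) := by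
  refine ⟨flo, hN, fun t y ⟨a, b, c⟩ => ⟨(lam_sc _ y).trans (by rw [a, mul_zero]),
    (η_sc _ y).trans (by rw [b, smul_zero]), (hV_sc _ y).trans (by rw [c, sV_zero])⟩,
    fun y U hU h => ?_, fun w K => nil_of_bdd⟩
  obtain ⟨y₀, a⟩ := hL y
  refine (a.eventually (hU.mem_nhds (h (nil_of_bdd (isCompact_singleton (x := y₀))
    fun t _ => ?_)))).exists
  refine tendsto_nhds_unique (((flo.c1 t).tendsto y₀).comp a) ?_
  exact (a.comp (tendsto_atBot_add_const_left _ t tendsto_id)).congr fun s => fl_add t s y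

/-! ### restriction to the parts of the moduli space -/

variable (A l τ) in
/-- charts, a nice space, the attractor -/
structure Amb : Prop where
  ku : Ku A l τ
  nice : Nice (TopCat.of (Mod A l τ))
  att : Att fl (Nil A l τ)

theorem nice_mod [T2Space (Mod A l τ)] (k : Ku A l τ) : Nice (TopCat.of (Mod A l τ)) :=
  have := wlc_mod k
  ⟨inferInstanceAs (LocallyCompactSpace (Mod A l τ)), ‹_›, sc_mod k⟩

theorem amb [CompactSpace C] [T2Space (Mod A l τ)] (k : Ku A l τ)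
    (hp : IsProperMap fun y : M0 A l τ => hY y.1)
    (hL : ∀ y : Mod A l τ, ∃ y₀, Tendsto (fun t => fl t y) atBot (𝓝 y₀)) : Amb A l τ :=
  ⟨k, nice_mod k, att_mod (nil_cpt hp) hL⟩

variable {k : Type} [Field k] {M B : TopCat.{0}} {i : M → Mod A l τ}

omit [T2Space C]

theorem nice_pt [Nice (TopCat.of (Mod A l τ))] (hS : IsLocallyClosed S) (hX : IsLocallyClosed X)
    (hi : IsEmbedding i) (hr : range i = Pt A l τ S X) : Nice M :=
  nice_of_lc (M := TopCat.of (Mod A l τ)) hi (hr ▸ (hS.preimage cont_pr).inter (hX.preimage cont_x))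

theorem rng_pt (hi : IsEmbedding i) (hr : range i = Pt A l τ S X) {a : B → M}
    (ha : range (i ∘ a) = Pt A l τ V X) : range a = (pr ∘ i) ⁻¹' V :=
  Set.ext fun x => ⟨fun ⟨y, e⟩ => e ▸ (ha.subset ⟨y, rfl⟩).1, fun b =>
    (ha.symm.subset ⟨b, (hr.subset ⟨x, rfl⟩).2⟩).imp fun _ e => hi.injective e⟩

/-- **BDRY** on the moduli space -/
theorem isIso_pt [Nice (TopCat.of (Mod A l τ))] (ku : Ku A l τ) (hX : LcX X) (hi : IsEmbedding i)
    (hr : range i = Pt A l τ S X) (hΩ : IsOpen Ω) (cΩ : Convex ℝ Ω) (hD : IsClosed D)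
    (cD : Convex ℝ D) (h1 : Ω ∩ D ⊆ S) (h2 : S ⊆ closure (Ω ∩ D)) {a : B ⟶ M}
    (ha : IsEmbedding a) (hra : range (i ∘ a) = Pt A l τ (Ω ∩ D) X) : IsIso (pullI k a) :=
  have := nice_pt (hΩ.isLocallyClosed.inter hD.isLocallyClosed) hX.lc (hi.comp ha) hra
  isIso_bdry ha hΩ cΩ hD cD (rng_pt hi hr hra) h1
    fun y _ => ⟨lp_mod ku hX hi hr y, h2 (hr.subset ⟨y, rfl⟩).1⟩

/-- the flow on a closed invariant part -/
theorem att_pt (h : Att fl (Nil A l τ)) (hS : IsClosed S)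
    (sS : ∀ s : ℝ, 0 < s → ∀ v ∈ S, s • v ∈ S) (hX : IsClosed X) (hi : IsEmbedding i)
    (hr : range i = Pt A l τ S X) :
    ∃ ψ : ℝ → M → M, Att ψ (i ⁻¹' Nil A l τ) ∧ ∀ t x, i (ψ t x) = fl t (i x) :=
  att_sub h ⟨hi, hr ▸ (hS.preimage cont_pr).inter (hX.preimage cont_x)⟩ fun t x => by
    have := hr.subset ⟨x, rfl⟩
    exact hr.symm.subset ⟨pr_fl t (i x) ▸ sS _ (Real.exp_pos t) _ this.1, (x_fl t (i x)).symm ▸ this.2⟩

variable (k A l τ) in
/-- the part over `V` has the cohomology of the whole family -/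
def Gd (X : Set C) (V : Set (Pr τ)) : Prop := ∀ (B : TopCat.{0})
  (a : B ⟶ TopCat.of (Pt A l τ univ X)), IsEmbedding a →
    range (Subtype.val ∘ a) = Pt A l τ V X → Function.Bijective (pb (k := k) a)

/-- **restriction between good parts is an isomorphism** -/
theorem Gd.pb (h : Gd A l τ k X S) (h' : Gd A l τ k X V) (hi : IsEmbedding i)
    (hr : range i = Pt A l τ S X) {a : B ⟶ M} (ha : IsEmbedding a)
    (hra : range (i ∘ a) = Pt A l τ V X) : Function.Bijective (pb (k := k) a) := by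
  have m : ∀ x, i x ∈ Pt A l τ univ X := fun x => ⟨trivial, (hr.subset ⟨x, rfl⟩).2⟩
  let j : M ⟶ TopCat.of (Pt A l τ univ X) := TopCat.ofHom ⟨_, hi.continuous.codRestrict m⟩
  have hj : IsEmbedding j := hi.codRestrict _ m
  refine (Function.Bijective.of_comp_iff _ (h M j hj hr)).1 ?_
  rw [show P275S.pb (k := k) a ∘ P275S.pb j = ⇑(P275S.pb (k := k) (a ≫ j)) from
    funext (pb_comp _ _)]
  exact h' B (a ≫ j) (hj.comp ha) hra

theorem Amb.aux (h : Amb A l τ) (hX : IsClosed X) : Nice (TopCat.of (Pt A l τ univ X)) ∧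
    ∃ ψ, Att ψ (Subtype.val ⁻¹' Nil A l τ : Set (Pt A l τ univ X)) ∧
      ∀ t x, (pr ∘ Subtype.val) (ψ t x) = Real.exp t • (pr ∘ Subtype.val) x :=
  have := h.nice
  ⟨nice_pt isClosed_univ.isLocallyClosed hX.isLocallyClosed IsEmbedding.subtypeVal
    Subtype.range_coe, (att_pt (M := TopCat.of _) h.att isClosed_univ (fun _ _ _ _ => trivial) hX
      IsEmbedding.subtypeVal Subtype.range_coe).imp fun _ a =>
        ⟨a.1, fun t x => (congrArg pr (a.2 t x)).trans (pr_fl t _)⟩⟩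

/-- closed cones -/
theorem Amb.closed (h : Amb A l τ) (hX : IsClosed X) (hS : IsClosed S) (h0 : 0 ∈ S)
    (sS : ∀ s : ℝ, 0 < s → ∀ v ∈ S, s • v ∈ S) : Gd A l τ k X S := fun B a ha hr => by
  obtain ⟨_, ψ, b, c⟩ := h.aux hX
  have r := rng_pt (M := TopCat.of _) IsEmbedding.subtypeVal Subtype.range_coe hr
  refine att_pb b ⟨ha, r ▸ hS.preimage (cont_pr.comp continuous_subtype_val)⟩ ?_ ?_ <;> rw [r]
  · exact fun t x hx => mem_of_eq_of_mem (s := S) (c t x) (sS _ (Real.exp_pos t) _ hx)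
  · exact fun x hx => mem_of_eq_of_mem (s := S) (show pr x.1 = 0 from Prod.ext hx.1 hx.2.1) h0

/-- locally closed convex cones -/
theorem Amb.cone (h : Amb A l τ) (hX : IsClosed X) (lX : LcX X) (hΩ : IsOpen Ω) (cΩ : Convex ℝ Ω)
    (hD : IsClosed D) (cD : Convex ℝ D) (ne : (Ω ∩ D).Nonempty)
    (sc : ∀ s : ℝ, 0 < s → ∀ v ∈ Ω ∩ D, s • v ∈ Ω ∩ D) : Gd A l τ k X (Ω ∩ D) :=
  fun B a ha hr => by
  obtain ⟨_, ψ, b, c⟩ := h.aux hX
  exact att_bdry (M := TopCat.of _) b (cont_pr.comp continuous_subtype_val) c hΩ cΩ hD cD ne sc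
    (subset_univ _)
    (fun m _ _ => lp_mod h.ku lX IsEmbedding.subtypeVal Subtype.range_coe m) ha
    (rng_pt (M := TopCat.of _) IsEmbedding.subtypeVal Subtype.range_coe hr)

/-- locally closed convex slices -/
theorem Amb.slice (h : Amb A l τ) (hX : IsClosed X) (lX : LcX X) (hΩ : IsOpen Ω) (cΩ : Convex ℝ Ω)
    (hD : IsClosed D) (cD : Convex ℝ D) (ne : (Ω ∩ D).Nonempty) (lam : Pr τ →L[ℝ] ℝ)
    (hl : ∀ v ∈ D, lam v = 1) : Gd A l τ k X (Ω ∩ D) := fun B a ha hr => by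
  obtain ⟨_, ψ, b, c⟩ := h.aux hX
  exact cone' (M := TopCat.of _) (D' := univ) b (cont_pr.comp continuous_subtype_val) c hΩ cΩ hD
    cD ne hl (fun _ _ _ _ => trivial)
    (lp_mod h.ku lX IsEmbedding.subtypeVal Subtype.range_coe) ha
    (rng_pt (M := TopCat.of _) IsEmbedding.subtypeVal Subtype.range_coe hr)

/-- slices of `λ = 1` -/
theorem Amb.one (h : Amb A l τ) (hX : IsClosed X) (lX : LcX X) {P Q : Set (Fin τ.m → ℂ)}
    (hP : IsOpen P) (cP : Convex ℝ P) (hQ : IsClosed Q) (cQ : Convex ℝ Q) (ne : (P ∩ Q).Nonempty) :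
    Gd A l τ k X ({1} ×ˢ (P ∩ Q)) := by
  have := h.slice (k := k) hX lX (isOpen_univ.prod hP) (convex_univ.prod cP)
    ((isClosed_singleton (x := 1)).prod hQ) ((convex_singleton _).prod cQ)
    (ne.elim fun v a => ⟨(1, v), ⟨trivial, a.1⟩, rfl, a.2⟩)
    (Complex.reCLM.comp (.fst ℝ _ _)) fun v a => congrArg Complex.re a.1
  rwa [prod_inter_prod, univ_inter] at this

theorem Amb.univ (h : Amb A l τ) (hX : IsClosed X) : Gd A l τ k X univ :=
  h.closed hX isClosed_univ trivial fun _ _ _ _ => trivial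

end Vale.Agent.P275CN
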