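import Vale.Agent.P275CN.Ins

/-! # P275: the slices of `λ = 1` over convex sets of the parameter `z` -/

set_option linter.all false
set_option backward.isDefEq.respectTransparency false

open CategoryTheory Set Topology Filter P275S

noncomputable section

namespace Vale.Agent.P275CN

open P275GC P275MO P275MB P275HN P275Z P275OI P275MM

variable {C : Type} [TopologicalSpace C] {n : ℕ} {A : At C} {l : P275NA.Cy A ℂ} {d : ℤ}
  {hn : 2 ≤ n} {k : Type} [Field k] {P Q P' : Set ℂ} {M B : TopCat.{0}}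

variable (A l hn) in
/-- flat objects with parameter in `P` -/
def sD (P : Set ℂ) : Set (Mod A l (tauY hn)) := {y | y.lam = 1 ∧ zz y ∈ P}

/-- the intersection of an open and a closed convex set, not empty -/
def Cx (P : Set ℂ) : Prop := P.Nonempty ∧ ∃ U V : Set ℂ, IsOpen U ∧ Convex ℝ U ∧ IsClosed V ∧
  Convex ℝ V ∧ P = U ∩ V

theorem cx_open (h : IsOpen P) (c : Convex ℝ P) (ne : P.Nonempty) : Cx P :=
  ⟨ne, P, univ, h, c, isClosed_univ, convex_univ, (inter_univ _).symm⟩

theorem cx_closed (h : IsClosed P) (c : Convex ℝ P) (ne : P.Nonempty) : Cx P :=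
  ⟨ne, univ, P, isOpen_univ, convex_univ, h, c, (univ_inter _).symm⟩

theorem cx_pt (z : ℂ) : Cx {z} := cx_closed isClosed_singleton (convex_singleton z) ⟨z, rfl⟩

theorem Cx.inter (h : Cx P) (h' : Cx Q) (ne : (P ∩ Q).Nonempty) : Cx (P ∩ Q) := by
  obtain ⟨-, U, V, a, b, c, e, rfl⟩ := h
  obtain ⟨-, U', V', a', b', c', e', rfl⟩ := h'
  exact ⟨ne, _, _, a.inter a', b.inter b', c.inter c', e.inter e', inter_inter_inter_comm _ _ _ _⟩

theorem sD_eq (P : Set ℂ) : sD A l hn P =
    Pt A l (tauY hn) ({1} ×ˢ ((fun v : Fin 1 → ℂ => v 0) ⁻¹' P)) univ :=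
  Set.ext fun _ => (and_iff_left trivial).symm

variable [hy : Hy A l n]

theorem gd_sD (hS : Std A l n d) (h : Cx P) :
    Gd A l (tauY hn) k univ ({1} ×ˢ ((fun v : Fin 1 → ℂ => v 0) ⁻¹' P)) := by
  obtain ⟨⟨z, hz⟩, U, V, a, b, c, e, rfl⟩ := h
  let π : (Fin 1 → ℂ) →L[ℝ] ℂ := .proj 0
  exact (amb_of (τ := tauY hn) hS hy.kur le_rfl).one (P := π ⁻¹' U) (Q := π ⁻¹' V) isClosed_univ
    (lcX_open A isOpen_univ) (a.preimage π.continuous) (b.linear_preimage π.toLinearMap)
    (c.preimage π.continuous) (e.linear_preimage π.toLinearMap) ⟨fun _ => z, hz⟩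

/-- restriction from the whole moduli space to the flat objects over `P` -/
theorem bij_sD (hS : Std A l n d) (h : Cx P) {a : B ⟶ MT A l (tauY hn)} (ha : IsEmbedding a)
    (hr : range a = sD A l hn P) : Function.Bijective (pb (k := k) a) :=
  Gd.pb (M := MT A l (tauY hn)) (i := id) ((amb_of hS hy.kur le_rfl).univ isClosed_univ)
    (gd_sD hS h) .id pt_univ ha (hr.trans (sD_eq P))

/-- restriction between two convex sets -/
theorem bij_sD₂ (hS : Std A l n d) (h : Cx P) (h' : Cx Q) {i : M → Mod A l (tauY hn)}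
    (hi : IsEmbedding i) (hr : range i = sD A l hn P) {a : B ⟶ M} (ha : IsEmbedding a)
    (hra : range (i ∘ a) = sD A l hn Q) : Function.Bijective (pb (k := k) a) :=
  Gd.pb (gd_sD hS h) (gd_sD hS h') hi (hr.trans (sD_eq P)) ha (hra.trans (sD_eq Q))

theorem bij_inc (hS : Std A l n d) (h : Cx P) :
    Function.Bijective (pb (k := k) (inc (sD A l hn P))) :=
  bij_sD hS h .subtypeVal Subtype.range_coe

variable [P275CC.Nc C]

theorem emb_i0 : IsClosedEmbedding (i0 A l hn) :=
  ty_emb (τ := tauZ n 0) (τ' := tauY hn) le_rfl (nk_le_qY 0) le_rfl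

theorem range_i0 : range (inc (sL A l (tauZ n 0) 1) ≫ i0 A l hn) = sD A l hn {0} := by
  ext y
  refine ⟨?_, fun ⟨a, b⟩ => ?_⟩
  · rintro ⟨x, rfl⟩
    exact ⟨(ty_lam (τ := tauZ n 0) (τ' := tauY hn) le_rfl (nk_le_qY 0) x.1).trans x.2,
      congrFun ((range_ZY hn).subset ⟨x.1, rfl⟩) (0 : Fin 1)⟩
  · obtain ⟨x, rfl⟩ := (range_ZY hn).symm.subset
      (show y.η = 0 from funext fun i : Fin 1 => Subsingleton.elim 0 i ▸ b)
    exact ⟨⟨x, (ty_lam (τ := tauZ n 0) (τ' := tauY hn) le_rfl (nk_le_qY 0) x).symm.trans a⟩, rfl⟩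

theorem emb_inc_i0 : IsEmbedding (inc (sL A l (tauZ n 0) 1) ≫ i0 A l hn) :=
  emb_i0.isEmbedding.comp .subtypeVal

/-- restriction to the flat objects with nilpotent residue -/
theorem bij_zero (hS : Std A l n d) :
    Function.Bijective (pb (k := k) (inc (sL A l (tauZ n 0) 1) ≫ i0 A l hn)) :=
  bij_sD hS (cx_pt 0) emb_inc_i0 range_i0

/-- restriction from the domain of the Hecke map -/
theorem bij_Tp (hS : Std A l n d) (h : Cx P) {a : B ⟶ sb (sTp A l hn)} (ha : IsEmbedding a)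
    (hr : range (Subtype.val ∘ a) = sD A l hn P) : Function.Bijective (pb (k := ℂ) a) := by
  refine (Function.Bijective.of_comp_iff _ (bijt hS)).1 ?_
  rw [show pb (k := ℂ) a ∘ pb (jT A l hn) = ⇑(pb (k := ℂ) (a ≫ jT A l hn)) from
    funext (pb_comp _ _)]
  exact bij_sD hS h (IsEmbedding.subtypeVal.comp ha) hr

theorem nice_sD (h : Cx P) {i : M → Mod A l (tauY hn)} (hi : IsEmbedding i)
    (hr : range i = sD A l hn P) : Nice M := by
  have := hy.t2
  have := (hy.nice (tauY hn)).1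
  have := nice_mod (hy.kur (tauY hn))
  obtain ⟨-, U, V, a, -, c, -, rfl⟩ := h
  exact nice_pt ((isClosed_singleton.isLocallyClosed.preimage continuous_fst).inter
    (((a.isLocallyClosed.inter c.isLocallyClosed).preimage
      (continuous_apply (0 : Fin 1))).preimage continuous_snd)) isOpen_univ.isLocallyClosed hi
    (hr.trans (sD_eq _))

end Vale.Agent.P275CN
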